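import Vale.Agent.P287T.Dt.Ring
import Mathlib.RingTheory.FiniteStability

/-!
# The descent datum up to homotopy
-/

open MvPolynomial Module TensorProduct

noncomputable section

namespace Vale.Agent.P287T.Dt

open Vale.Agent.P287T.Cy Vale.Agent.P287T.Au Vale.Agent.P287T.Sx Vale.Agent.P287Z.O

variable {B D : Type} [CommRing B] [Algebra ℂ B] [CommRing D] [Algebra ℂ D] [Algebra B D]
  [IsScalarTower ℂ B D]

theorem lb_ten {X : Type} [CommRing X] [Algebra ℂ X] [Algebra B X] [IsScalarTower ℂ B X]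
    {a : Eu B} {e : Eu D} {f : Eu X} (he : Lb a e) (hf : Lb a f) (h : Lb e e) (h' : Lb f f) :
    Lb (Eu.ten he hf) (Eu.ten he hf) := fun r z => by
  simp only [smul_eq_mul]
  induction r using TensorProduct.induction_on with
  | zero => simp
  | add x y hx hy =>
    simp only [add_mul, map_add, hx, hy]
    abel
  | tmul v x =>
    induction z using TensorProduct.induction_on with
    | zero => simp
    | add x y hx hy =>
      simp only [mul_add, map_add, hx, hy]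
      abel
    | tmul w y =>
      have h1 := h v w
      have h2 := h' x y
      simp only [smul_eq_mul] at h1 h2
      simp only [Algebra.TensorProduct.tmul_mul_tmul, Eu.ten_tmul, h1, h2, add_mul, mul_add,
        add_tmul, tmul_add]
      abel

theorem ft_ten [h : Algebra.FiniteType ℂ D] (X : Type) [CommRing X] [Algebra ℂ X] [Algebra B X]
    [IsScalarTower ℂ B X] [Algebra.FiniteType ℂ X] : Algebra.FiniteType ℂ (D ⊗[B] X) := by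
  have := Algebra.FiniteType.of_restrictScalars_finiteType ℂ B X
  exact h.trans inferInstance

variable (B D)

/-- the first factor -/
def I0 : D →ₐ[ℂ] D ⊗[B] D := Algebra.TensorProduct.includeLeft

/-- the second factor -/
def I1 : D →ₐ[ℂ] D ⊗[B] D :=
  (Algebra.TensorProduct.includeRight : D →ₐ[B] D ⊗[B] D).restrictScalars ℂ

/-- the diagonal -/
def Mu : D ⊗[B] D →ₐ[ℂ] D := (Algebra.TensorProduct.lmul' B : D ⊗[B] D →ₐ[B] D).restrictScalars ℂ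

/-- the factors zero and one -/
def J01 : D ⊗[B] D →ₐ[ℂ] D ⊗[B] (D ⊗[B] D) :=
  (Algebra.TensorProduct.map (AlgHom.id B D) Algebra.TensorProduct.includeLeft :
    D ⊗[B] D →ₐ[B] D ⊗[B] (D ⊗[B] D)).restrictScalars ℂ

/-- the factors zero and two -/
def J02 : D ⊗[B] D →ₐ[ℂ] D ⊗[B] (D ⊗[B] D) :=
  (Algebra.TensorProduct.map (AlgHom.id B D) Algebra.TensorProduct.includeRight :
    D ⊗[B] D →ₐ[B] D ⊗[B] (D ⊗[B] D)).restrictScalars ℂ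

/-- the factors one and two -/
def J12 : D ⊗[B] D →ₐ[ℂ] D ⊗[B] (D ⊗[B] D) :=
  (Algebra.TensorProduct.includeRight : D ⊗[B] D →ₐ[B] D ⊗[B] (D ⊗[B] D)).restrictScalars ℂ

variable {B D} (Γ : Gr B D)

theorem lb2 : Lb Γ.e2 Γ.e2 := lb_ten _ _ Γ.lbD Γ.lbD

theorem lb3 : Lb Γ.e3 Γ.e3 := lb_ten _ _ Γ.lbD (lb2 Γ)

theorem deg_i0 : Deg Γ.eD Γ.e2 0 (i0 B D) := fun _ _ hv =>
  add_comm _ (0 : ℤ × ℤ) ▸ Eu.tmul_mem _ _ hv Γ.lbD.one

theorem deg_i1 : Deg Γ.eD Γ.e2 0 (i1 B D) := fun _ _ hv => Eu.tmul_mem _ _ Γ.lbD.one hv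

theorem deg_mu : Deg Γ.e2 Γ.eD 0 (mu B D) :=
  deg_ten _ _ (Mu B D).toLinearMap fun _ _ _ _ hv hx => by
    rw [zero_add]
    exact Γ.lbD.mul hv hx

theorem deg_j01 : Deg Γ.e2 Γ.e3 0 (j01 B D) :=
  deg_ten _ _ (J01 B D).toLinearMap fun _ _ _ _ hv hx => by
    rw [add_left_comm]
    exact Eu.tmul_mem _ _ hv (deg_i0 Γ _ _ hx)

theorem deg_j02 : Deg Γ.e2 Γ.e3 0 (j02 B D) :=
  deg_ten _ _ (J02 B D).toLinearMap fun _ _ _ _ hv hx => by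
    rw [add_left_comm]
    exact Eu.tmul_mem _ _ hv (deg_i1 Γ _ _ hx)

theorem deg_j12 : Deg Γ.e2 Γ.e3 0 (j12 B D) := fun _ _ hv => Eu.tmul_mem _ _ Γ.lbD.one hv

theorem lc_comp {R S α : Type} [CommRing R] [Algebra ℂ R] [CommRing S] [Algebra ℂ S] {e : Eu R}
    {e' : Eu S} {he : Lb e e} (he' : Lb e' e') (f : R →ₐ[ℂ] S) (hf : Deg e e' 0 f)
    {F : (R →ₐ[ℂ] ℂ) → α} (h : LC (fn he) F) : LC (fn he') fun φ => F (φ.comp f) := fun φ => by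
  obtain ⟨_, ⟨w, hw, rfl⟩, h1, h2⟩ := h (φ.comp f)
  exact ⟨_, ⟨f w, add_zero (0 : ℤ × ℤ) ▸ hf _ _ hw, rfl⟩, h1, fun ψ => h2 (ψ.comp f)⟩

variable {ι κ : Type} [Fintype ι] [DecidableEq ι] [Fintype κ] [DecidableEq κ] {W : S6}
  {p : ι → ℤ} {d : Matrix ι ι (Px D)} {q : κ → ℤ} {c : Matrix κ κ S6} {a s : ℤ} {n r : ℕ}

omit [Fintype ι] [DecidableEq ι] in
theorem v0 (φ : D ⊗[B] D →ₐ[ℂ] ℂ) : val φ (mm (i0 B D) d) = val (φ.comp (I0 B D)) d :=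
  val_mm (I0 B D) φ

omit [Fintype ι] [DecidableEq ι] in
theorem v1 (φ : D ⊗[B] D →ₐ[ℂ] ℂ) : val φ (mm (i1 B D) d) = val (φ.comp (I1 B D)) d :=
  val_mm (I1 B D) φ

omit [Fintype ι] [DecidableEq ι] in
theorem w0 (φ : D ⊗[B] (D ⊗[B] D) →ₐ[ℂ] ℂ) : val φ (mm ((j01 B D).comp (i0 B D)) d) =
    val (φ.comp ((J01 B D).comp (I0 B D))) d := val_mm ((J01 B D).comp (I0 B D)) φ

omit [Fintype ι] [DecidableEq ι] in
theorem w2 (φ : D ⊗[B] (D ⊗[B] D) →ₐ[ℂ] ℂ) : val φ (mm ((j12 B D).comp (i1 B D)) d) =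
    val (φ.comp ((J12 B D).comp (I1 B D))) d := val_mm ((J12 B D).comp (I1 B D)) φ

omit [Fintype ι] [DecidableEq ι] in
theorem pull {N : (D →ₐ[ℂ] ℂ) → (D →ₐ[ℂ] ℂ) → Matrix ι ι S6 → Prop}
    {g : Matrix ι ι (Px (D ⊗[B] D))}
    (h : ∀ φ : D ⊗[B] D →ₐ[ℂ] ℂ, N (φ.comp (I1 B D)) (φ.comp (I0 B D)) (val φ g)) {S : Type}
    [CommRing S] [Algebra ℂ S] (f : D ⊗[B] D →ₐ[ℂ] S) (φ : S →ₐ[ℂ] ℂ) (x y : D →ₐ[ℂ] S)
    (hx : ∀ z, x z = f (I1 B D z)) (hy : ∀ z, y z = f (I0 B D z)) :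
    N (φ.comp x) (φ.comp y) (val φ (mm (f : D ⊗[B] D →+* S) g)) := by
  rw [val_mm, show x = f.comp (I1 B D) from AlgHom.ext hx,
    show y = f.comp (I0 B D) from AlgHom.ext hy]
  exact h (φ.comp f)

theorem coc [Algebra.FiniteType ℂ D] [IsReduced (D ⊗[B] (D ⊗[B] D))] (fd : CF Γ.eD d)
    (hO : ∀ φ ψ : D →ₐ[ℂ] ℂ, (∀ b, φ (algebraMap B D b) = ψ (algebraMap B D b)) →
      Pair W p (val φ d) (val ψ d)) {N : (D →ₐ[ℂ] ℂ) → (D →ₐ[ℂ] ℂ) → Matrix ι ι S6 → Prop}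
    (hN : ∀ φ ψ χ x y z, N φ ψ x → N ψ χ y → N φ χ z → y * x - z ∈ BB p (val φ d) p (val χ d) 0)
    {g : Matrix ι ι (Px (D ⊗[B] D))} (fg : CF Γ.e2 g)
    (h : ∀ φ : D ⊗[B] D →ₐ[ℂ] ℂ, N (φ.comp (I1 B D)) (φ.comp (I0 B D)) (val φ g)) :
    ∃ h, MX (Γ.e3.H 0) p p (-3) h ∧ mm (j01 B D) g * mm (j12 B D) g - mm (j02 B D) g =
      mm ((j01 B D).comp (i0 B D)) d * h + h * mm ((j12 B D).comp (i1 B D)) d := by
  have := ft_ten (B := B) (D := D) D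
  have := ft_ten (B := B) (D := D) (D ⊗[B] D)
  have f2 : CF Γ.e3 (mm ((j12 B D).comp (i1 B D)) d) :=
    fd.mm ((deg_j12 Γ).comp (deg_i1 Γ) (add_zero _).symm)
  have f0 : CF Γ.e3 (mm ((j01 B D).comp (i0 B D)) d) :=
    fd.mm ((deg_j01 Γ).comp (deg_i0 Γ) (add_zero _).symm)
  refine bnd (W := W) (k := 0) (lb3 Γ) f2 f0 (fun φ => ?_)
    (((fg.mm (deg_j01 Γ)).mul (lb3 Γ) (fg.mm (deg_j12 Γ))).sub (fg.mm (deg_j02 Γ))) fun φ => ?_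
  · rw [w0, w2]
    refine hO _ _ fun b => congrArg φ ?_
    change (1 : D) ⊗ₜ[B] ((1 : D) ⊗ₜ[B] algebraMap B D b) = algebraMap B D b ⊗ₜ[B] (1 ⊗ₜ[B] 1)
    rw [Algebra.algebraMap_eq_smul_one, tmul_smul, tmul_smul, smul_tmul']
  · rw [w0, w2, val_sub, val_mul]
    exact hN _ _ _ _ _ _
      (pull h (J12 B D) φ ((J12 B D).comp (I1 B D)) ((J12 B D).comp (I0 B D)) (fun _ => rfl)
        fun _ => rfl)
      (pull h (J01 B D) φ ((J12 B D).comp (I0 B D)) ((J01 B D).comp (I0 B D)) (fun _ => rfl)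
        fun _ => rfl)
      (pull h (J02 B D) φ ((J12 B D).comp (I1 B D)) ((J01 B D).comp (I0 B D)) (fun _ => rfl)
        fun _ => rfl)

/-- **GL**: the input of STRICT -/
theorem inp [Algebra.FiniteType ℂ D] [IsReduced D] [IsReduced (D ⊗[B] D)]
    [IsReduced (D ⊗[B] (D ⊗[B] D))] (fm : Fm Γ W p d) (hW : V.Hg 6 W)
    (hO : ∀ φ ψ : D →ₐ[ℂ] ℂ, (∀ b, φ (algebraMap B D b) = ψ (algebraMap B D b)) →
      Pair W p (val φ d) (val ψ d))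
    (hE : IsMF W q c) (hL : Lo p q a) (hs : s = 1 ∨ s = -1)
    (hc : ∀ φ : D →ₐ[ℂ] ℂ, Chi p q c a n (val φ d) = s) (F : (D →ₐ[ℂ] ℂ) → Fr ι κ r)
    (hF : ∀ φ, Adm p q c a n (val φ d) (F φ))
    (hl : ∀ φ₀ : D →ₐ[ℂ] ℂ, ∃ w ∈ Γ.eD.H 0, φ₀ w ≠ 0 ∧ ∀ φ, φ w ≠ 0 → F φ = F φ₀) :
    Inp Γ W p d := by
  have := ft_ten (B := B) (D := D) D
  have l : LC (fn Γ.lbD) F := fun φ => (hl φ).elim fun w h => ⟨_, ⟨w, h.1, rfl⟩, h.2⟩
  have fd := cf_of fm.dg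
  have hm : ∀ φ : D →ₐ[ℂ] ℂ, Pair W p (val φ d) (val φ d) := fun φ => hO φ φ fun _ => rfl
  have hP : ∀ φ, Pair W p (val φ (mm (i1 B D) d)) (val φ (mm (i0 B D) d)) := fun φ => by
    rw [v0, v1]
    exact hO _ _ fun b => congrArg φ ((Algebra.TensorProduct.includeRight.commutes b).trans
      (Algebra.TensorProduct.algebraMap_apply b))
  refine ⟨fm, fun k hk => neg (lb2 Γ) (fd.mm (deg_i1 Γ)) (fd.mm (deg_i0 Γ)) hP hk, ?_⟩
  obtain ⟨g, g1, g2, g3⟩ := glob_ring (F := fun φ => F (φ.comp (I1 B D)))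
    (F' := fun φ => F (φ.comp (I0 B D))) (lb2 Γ) hW hE hL hs (fd.mm (deg_i1 Γ))
    (fd.mm (deg_i0 Γ)) hP (fun φ => by rw [v1, hc]) (fun φ => by rw [v1]; exact hF _)
    (fun φ => by rw [v0]; exact hF _) (lc_comp _ _ (deg_i1 Γ) l) (lc_comp _ _ (deg_i0 Γ) l)
  simp only [v0, v1] at g3
  obtain ⟨h, h1, h2⟩ := coc Γ fd hO
    (N := fun φ ψ x => Nrm p q c a n (val φ d) (F φ) (val ψ d) (F ψ) x)
    (fun φ ψ χ x y z k1 k2 k3 => Nrm.uniq hE (hm φ).mf hL (hm φ).simp ((hc φ).symm ▸ hs) (hF φ)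
      (Nrm.comp hE (hm φ).mf (hm ψ).mf (hF φ) (hF ψ) k1 k2) k3) (cf_of g1) g3
  obtain ⟨h0, k1, k2⟩ := bnd (W := W) (k := 0) Γ.lbD fd fd hm
    (((cf_of g1).mm (deg_mu Γ)).sub (cf_one Γ.lbD)) fun φ => by
      rw [val_sub, val_one]
      exact Nrm.uniq hE (hm φ).mf hL (hm φ).simp ((hc φ).symm ▸ hs) (hF φ)
        (pull (N := fun φ ψ x => Nrm p q c a n (val φ d) (F φ) (val ψ d) (F ψ) x) g3 (Mu B D) φ
          (AlgHom.id ℂ D) (AlgHom.id ℂ D) (fun z => (one_mul z).symm)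
          fun z => (mul_one z).symm) (nrm_one (hF φ))
  exact ⟨g, h, h0, g1, h1, k1, g2, h2, k2⟩

end Vale.Agent.P287T.Dt
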