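import Vale.Agent.P287T.Dt.Cx
import Mathlib.LinearAlgebra.Trace
import Vale.Agent.P287Z.T.Min1

/-!
# Equivalent factorizations of the same shape are isomorphic
-/

set_option linter.unusedVariables false

open MvPolynomial Module

noncomputable section

namespace Vale.Agent.P287T.Dt

open Vale.Agent.P287T.Cy Vale.Agent.P287Z.O Vale.Agent.P287Z.O.L Vale.Agent.P287Z.T

section lin

variable {V : Type} [AddCommGroup V] [Module ℂ V] [FiniteDimensional ℂ V]

/-- idempotents with the same trace are equivalent -/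
theorem idem_equiv {ε ε' : Module.End ℂ V} (h : ε * ε = ε) (h' : ε' * ε' = ε')
    (ht : LinearMap.trace ℂ V ε = LinearMap.trace ℂ V ε') :
    ∃ θ θ' : Module.End ℂ V, θ * ε = θ ∧ ε' * θ = θ ∧ θ' * ε' = θ' ∧ ε * θ' = θ' ∧
      θ' * θ = ε ∧ θ * θ' = ε' := by
  have p1 := LinearMap.IsIdempotentElem.isProj_range ε h
  have p2 := LinearMap.IsIdempotentElem.isProj_range ε' h'
  rw [p1.trace, p2.trace, Nat.cast_inj] at ht
  let φ := LinearEquiv.ofFinrankEq _ _ ht
  have a1 : ∀ x : LinearMap.range ε, ε.rangeRestrict x = x := fun x =>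
    Subtype.ext (p1.map_id _ x.2)
  have a2 : ∀ x : LinearMap.range ε', ε'.rangeRestrict x = x := fun x =>
    Subtype.ext (p2.map_id _ x.2)
  refine ⟨(LinearMap.range ε').subtype ∘ₗ φ.toLinearMap ∘ₗ ε.rangeRestrict,
    (LinearMap.range ε).subtype ∘ₗ φ.symm.toLinearMap ∘ₗ ε'.rangeRestrict, ?_, ?_, ?_, ?_, ?_, ?_⟩
  · ext x
    exact congrArg (fun y => (φ y : V)) (a1 (ε.rangeRestrict x))
  · ext x
    exact p2.map_id _ (φ (ε.rangeRestrict x)).2
  · ext x
    exact congrArg (fun y => (φ.symm y : V)) (a2 (ε'.rangeRestrict x))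
  · ext x
    exact p1.map_id _ (φ.symm (ε'.rangeRestrict x)).2
  · ext x
    change (φ.symm (ε'.rangeRestrict (φ (ε.rangeRestrict x))) : V) = ε x
    rw [a2, φ.symm_apply_apply]
    rfl
  · ext x
    change (φ (ε.rangeRestrict (φ.symm (ε'.rangeRestrict x))) : V) = ε' x
    rw [a1, φ.apply_symm_apply]
    rfl

variable {σ : Type} [Fintype σ] {e : Basis σ ℂ V} {g : σ → ℤ}

omit [FiniteDimensional ℂ V] [Fintype σ] in
theorem dv_mul {k l m : ℤ} {x y : Module.End ℂ V} (hx : DV e g e g k x) (hy : DV e g e g l y)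
    (h : l + k = m) : DV e g e g m (x * y) := fun a v hv =>
  vg_of_eq (hx _ _ (hy a v hv)) (by omega)

omit [FiniteDimensional ℂ V] [Fintype σ] in
theorem dv_comm {k : ℤ} {x : Module.End ℂ V} (hx : DV e g e g k x) (a : ℤ) :
    x * pr e g a = pr e g (a + k) * x := LinearMap.ext fun v => pr_comm hx a v

omit [FiniteDimensional ℂ V] [Fintype σ] in
theorem dv_comm0 {x : Module.End ℂ V} (hx : DV e g e g 0 x) (a : ℤ) :
    x * pr e g a = pr e g a * x := by rw [dv_comm hx, add_zero]

omit [FiniteDimensional ℂ V] [Fintype σ] in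
theorem pr_pr (a b : ℤ) :
    (pr e g a * pr e g b : Module.End ℂ V) = if a = b then pr e g a else 0 := by
  refine LinearMap.ext fun v => ?_
  rw [Module.End.mul_apply]
  split_ifs with h
  · rw [← h, pr_self (pr_mem (e := e) (g := g) a v)]
  · rw [pr_ne (pr_mem (e := e) (g := g) b v) (Ne.symm h), LinearMap.zero_apply]

omit [FiniteDimensional ℂ V] in
theorem pr_sum : ∑ a ∈ Finset.univ.image g, (pr e g a : Module.End ℂ V) = 1 := by
  refine e.ext fun t => ?_
  rw [LinearMap.sum_apply, Finset.sum_eq_single (g t) (fun b _ hb => by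
    rw [pr_basis, if_neg (Ne.symm hb)]) (fun h => (h (by simp)).elim), pr_basis, if_pos rfl]
  rfl

/-- graded idempotents with the same graded traces are equivalent -/
theorem idem_gr {ε ε' : Module.End ℂ V} (h : ε * ε = ε) (h' : ε' * ε' = ε')
    (d : DV e g e g 0 ε) (d' : DV e g e g 0 ε')
    (ht : ∀ a, LinearMap.trace ℂ V (pr e g a * ε) = LinearMap.trace ℂ V (pr e g a * ε')) :
    ∃ θ θ' : Module.End ℂ V, DV e g e g 0 θ ∧ θ * ε = θ ∧ ε' * θ = θ ∧ θ' * ε' = θ' ∧
      θ' * θ = ε := by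
  have k : ∀ {x : Module.End ℂ V}, x * x = x → DV e g e g 0 x → ∀ a b,
      pr e g a * x * (pr e g b * x) = if a = b then pr e g a * x else 0 := fun {x} h1 h2 a b => by
    rw [mul_assoc, ← mul_assoc x, dv_comm0 h2, mul_assoc, h1, ← mul_assoc, pr_pr]
    split_ifs <;> simp
  choose θ θ' a1 a2 a3 a4 a5 a6 using fun a => idem_equiv ((k h d a a).trans (if_pos rfl))
    ((k h' d' a a).trans (if_pos rfl)) (ht a)
  refine ⟨∑ a ∈ Finset.univ.image g, θ a, ∑ a ∈ Finset.univ.image g, θ' a, fun b v hv => ?_,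
    ?_, ?_, ?_, ?_⟩
  · rw [LinearMap.sum_apply, add_zero]
    refine sum_mem fun a _ => ?_
    by_cases hab : a = b
    · rw [← a2, mul_assoc, hab]
      exact pr_mem _ _
    · rw [← a1, ← dv_comm0 d, Module.End.mul_apply, Module.End.mul_apply, pr_ne hv (Ne.symm hab),
        map_zero, map_zero]
      exact zero_mem _
  · rw [Finset.sum_mul]
    exact Finset.sum_congr rfl fun a _ => by rw [← a1, mul_assoc, mul_assoc, h]
  · rw [Finset.mul_sum]
    exact Finset.sum_congr rfl fun a _ => by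
      rw [← a2, ← mul_assoc, ← mul_assoc, dv_comm0 d', mul_assoc (pr e g a) ε' ε', h']
  · rw [Finset.sum_mul]
    exact Finset.sum_congr rfl fun a _ => by rw [← a3, mul_assoc, mul_assoc, h']
  · rw [Finset.sum_mul, ← one_mul ε, ← pr_sum (e := e) (g := g), Finset.sum_mul]
    refine Finset.sum_congr rfl fun a ha => ?_
    rw [Finset.mul_sum, Finset.sum_eq_single a (fun b _ hb => ?_) fun h => (h ha).elim, a5]
    rw [← a3, ← a2, mul_assoc, ← mul_assoc (pr e g a * ε'), k h' d', if_neg (Ne.symm hb), zero_mul,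
      mul_zero]

/-- the linear algebra: a homotopy equivalence is homotopic to an isomorphism -/
theorem lin_iso {D D' φ ψ h h' : Module.End ℂ V} (dD : DV e g e g 3 D) (dD' : DV e g e g 3 D')
    (dφ : DV e g e g 0 φ) (dψ : DV e g e g 0 ψ) (hD : D * D = 0) (hD' : D' * D' = 0)
    (c : D' * φ = φ * D) (c' : D * ψ = ψ * D') (r : ψ * φ - 1 = D * h + h * D)
    (r' : φ * ψ - 1 = D' * h' + h' * D') :
    ∃ k, DV e g e g (-3) k ∧ IsUnit (φ + (D' * k + k * D)) := by
  have key : ∀ {D : Module.End ℂ V}, DV e g e g 3 D → D * D = 0 → ∃ η π : Module.End ℂ V,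
      DV e g e g (-3) η ∧ DV e g e g 0 π ∧ η * η = 0 ∧ η * D * η = η ∧ D * η * D = D ∧
      π = 1 - (D * η + η * D) ∧ π * D = 0 ∧ D * π = 0 ∧ π * η = 0 ∧ η * π = 0 := by
    intro D dD hD
    obtain ⟨η, d1, h1, h2, h3⟩ := exists_eta dD hD
    refine ⟨η, _, d1, fun a v hv => ?_, h1, h2, h3, rfl, ?_, ?_, ?_, ?_⟩
    · exact sub_mem (vg_of_eq hv (add_zero _).symm)
        (add_mem (dv_mul dD d1 (by norm_num) a v hv) (dv_mul d1 dD (by norm_num) a v hv))
    · rw [sub_mul, add_mul, h3, mul_assoc, hD]; simp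
    · rw [mul_sub, mul_add, ← mul_assoc, ← mul_assoc, hD, h3]; simp
    · rw [sub_mul, add_mul, h2, mul_assoc, h1]; simp
    · rw [mul_sub, mul_add, ← mul_assoc, ← mul_assoc, h1, h2]; simp
  have two : ∀ {D D' φ ψ h η' π π' : Module.End ℂ V}, D' * φ = φ * D → D * ψ = ψ * D' →
      ψ * φ - 1 = D * h + h * D → π' = 1 - (D' * η' + η' * D') → π * D = 0 → D * π = 0 →
      π * ψ * π' * φ * π = π * π := by
    intro D D' φ ψ h η' π π' c c' r e1 e2 e3
    have a1 : π * ψ * D' = 0 := by rw [mul_assoc, ← c', ← mul_assoc, e2, zero_mul]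
    have a2 : D' * φ * π = 0 := by rw [c, mul_assoc, e3, mul_zero]
    have a3 : π * ψ * π' * φ * π = π * (ψ * φ) * π - π * ψ * D' * (η' * φ * π) -
        π * ψ * η' * (D' * φ * π) := by
      rw [e1]; noncomm_ring
    have a4 : π * (ψ * φ) * π = π * π + π * D * (h * π) + π * h * (D * π) := by
      rw [eq_add_of_sub_eq r]; noncomm_ring
    rw [a3, a1, a2, a4, e2, e3]
    simp
  obtain ⟨η, π, d1, d2, h1, h2, h3, p0, p1, p2, p3, p4⟩ := key dD hD
  obtain ⟨η', π', d1', d2', h1', h2', h3', p0', p1', p2', p3', p4'⟩ := key dD' hD'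
  have pp : ∀ {D η π : Module.End ℂ V}, π = 1 - (D * η + η * D) → π * D = 0 → π * η = 0 →
      π * π = π := fun {D η π} e1 e2 e3 => by
    conv_lhs => rw [← sub_zero (π * π)]
    nth_rewrite 2 [e1]
    rw [mul_sub, mul_add, ← mul_assoc, ← mul_assoc, e2, e3]
    simp
  have t1 := (two c c' r p0' p1 p2).trans (pp p0 p1 p3)
  have t2 := (two c' c r' p0 p1' p2').trans (pp p0' p1' p3')
  have q1 := pp p0 p1 p3
  have q2 := pp p0' p1' p3'
  have tr1 : ∀ a, LinearMap.trace ℂ V (pr e g a * π) = LinearMap.trace ℂ V (pr e g a * π') := by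
    intro a
    have b1 : pr e g a * π = pr e g a * (π * ψ * π') * (π' * φ * π) := by
      rw [mul_assoc, ← mul_assoc (π * ψ * π'), ← mul_assoc (π * ψ * π'), mul_assoc (π * ψ), q2, t1]
    have b2 : pr e g a * π' = π' * φ * π * (pr e g a * (π * ψ * π')) := by
      rw [← mul_assoc, dv_comm0 (dv_mul (dv_mul d2' dφ (add_zero _)) d2 (add_zero _)), mul_assoc,
        ← mul_assoc (π' * φ * π), ← mul_assoc (π' * φ * π), mul_assoc (π' * φ), q1, t2]
    rw [b1, b2, LinearMap.trace_mul_comm]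
  have tr2 : ∀ {D η π : Module.End ℂ V}, DV e g e g (-3) η → π = 1 - (D * η + η * D) → ∀ a,
      LinearMap.trace ℂ V (pr e g a * (η * D)) = LinearMap.trace ℂ V (pr e g a) -
        LinearMap.trace ℂ V (pr e g a * π) - LinearMap.trace ℂ V (pr e g (a - 3) * (η * D)) := by
    intro D η π d1 p0 a
    rw [p0, mul_sub, mul_add, mul_one, map_sub, map_add, ← mul_assoc _ D,
      LinearMap.trace_mul_comm ℂ _ η, ← mul_assoc η, dv_comm d1, mul_assoc, sub_eq_add_neg a]
    ring
  obtain ⟨a₀, ha₀⟩ := (Set.finite_range g).bddBelow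
  have tr3 : ∀ (m : ℕ) (a : ℤ), a < a₀ + m → LinearMap.trace ℂ V (pr e g a * (η * D)) =
      LinearMap.trace ℂ V (pr e g a * (η' * D')) := by
    intro m
    induction m with
    | zero =>
      intro a ha
      have : pr e g a = 0 := e.ext fun t => by
        have := ha₀ ⟨t, rfl⟩
        rw [pr_basis, if_neg (by omega), LinearMap.zero_apply]
      rw [this, zero_mul, zero_mul]
    | succ m ih =>
      intro a ha
      rw [tr2 d1 p0, tr2 d1' p0', tr1, ih (a - 3) (by omega)]
  obtain ⟨θ, θ', dθ, s1, s2, s3, s4⟩ := idem_gr (e := e) (g := g) (ε := η * D) (ε' := η' * D')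
    (by rw [← mul_assoc, h2]) (by rw [← mul_assoc, h2']) (dv_mul d1 dD (by norm_num))
    (dv_mul d1' dD' (by norm_num)) fun a => tr3 (a - a₀ + 1).toNat a (by omega)
  refine ⟨θ * η - φ * η - η' * φ * π, fun a v hv => sub_mem (sub_mem
    (dv_mul dθ d1 (add_zero _) a v hv) (dv_mul dφ d1 (add_zero _) a v hv))
    (dv_mul (dv_mul d1' dφ (zero_add _)) d2 (zero_add _) a v hv), ?_⟩
  have a2 : D' * φ * π = 0 := by rw [c, mul_assoc, p2, mul_zero]
  have e1 : φ + (D' * (θ * η - φ * η - η' * φ * π) + (θ * η - φ * η - η' * φ * π) * D) =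
      π' * φ * π + D' * θ * η + θ := by
    have b1 : π' * φ * π = φ * π - D' * (η' * φ * π) - η' * (D' * φ * π) := by
      nth_rewrite 1 [p0']; noncomm_ring
    have b2 : φ * π = φ - φ * D * η - φ * η * D := by
      rw [p0]; noncomm_ring
    have b3 : φ + (D' * (θ * η - φ * η - η' * φ * π) + (θ * η - φ * η - η' * φ * π) * D) =
        φ - D' * φ * η - φ * η * D - D' * (η' * φ * π) + D' * θ * η + θ * (η * D) -
          η' * φ * (π * D) := by noncomm_ring
    rw [b3, b1, b2, a2, p1, s1, c]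
    simp
  have z1 : π' * θ = 0 := by rw [← s2, ← mul_assoc, ← mul_assoc, p3', zero_mul, zero_mul]
  have z2 : η' * θ = 0 := by rw [← s2, ← mul_assoc, ← mul_assoc, h1', zero_mul, zero_mul]
  have z3 : θ' * π' = 0 := by rw [← s3, mul_assoc, mul_assoc, p2', mul_zero, mul_zero]
  have z4 : θ' * D' = 0 := by rw [← s3, mul_assoc, mul_assoc, hD', mul_zero, mul_zero]
  have e2 : (π * ψ * π' + D * θ' * η' + θ') * (π' * φ * π + D' * θ * η + θ) = 1 := by
    have b1 : (π * ψ * π' + D * θ' * η' + θ') * (π' * φ * π + D' * θ * η + θ) =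
        π * ψ * (π' * π') * φ * π + π * ψ * (π' * D') * θ * η + π * ψ * (π' * θ) +
        D * θ' * (η' * π') * φ * π + D * (θ' * (η' * D' * θ)) * η + D * θ' * (η' * θ) +
        θ' * π' * φ * π + θ' * D' * θ * η + θ' * θ := by noncomm_ring
    rw [b1, q2, t1, p1', z1, p4', s2, s4, z2, z3, z4, ← mul_assoc D, h3, p0]
    simp only [mul_zero, zero_mul, add_zero]
    abel
  rw [e1, LinearMap.isUnit_iff_ker_eq_bot, LinearMap.ker_eq_bot']
  intro v hv
  rw [← Module.End.one_apply (R := ℂ) v, ← e2, Module.End.mul_apply, hv, map_zero]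

end lin

variable {ι : Type} [Fintype ι] [DecidableEq ι] {W : S6} {p : ι → ℤ} {d d' φ : Matrix ι ι S6}

/-- reduction modulo the variables -/
def red (M : Matrix ι ι S6) : Module.End ℂ (ι → ℂ) :=
  Matrix.toLin' (M.map (constantCoeff : S6 →+* ℂ))

theorem red_mul (M N : Matrix ι ι S6) : red (M * N) = red M * red N := by
  rw [red, Matrix.map_mul, Matrix.toLin'_mul]
  rfl

theorem red_add (M N : Matrix ι ι S6) : red (M + N) = red M + red N := by
  rw [red, Matrix.map_add _ (map_add _), map_add]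
  rfl

theorem red_sub_one (M : Matrix ι ι S6) : red (M - 1) = red M - 1 := by
  rw [red, Matrix.map_sub _ (map_sub _), map_sub, Matrix.map_one _ (map_zero _) (map_one _),
    Matrix.toLin'_one]
  rfl

theorem cc_hg {n : ℤ} {f : S6} (hf : V.Hg n f) (h : n ≠ 0) : constantCoeff f = 0 := by
  by_contra hc
  have := coeff_hg (m := 0) hf hc
  rw [map_zero] at this
  omega

theorem red_dv {k : ℤ} {M : Matrix ι ι S6} (h : M ∈ MM p p k) :
    DV (Pi.basisFun ℂ ι) p (Pi.basisFun ℂ ι) p k (red M) := fun a v hv t ht => by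
  rw [Pi.basisFun_repr, red, Matrix.toLin'_apply, Matrix.mulVec, dotProduct]
  refine Finset.sum_eq_zero fun l _ => ?_
  by_cases hl : p l = a
  · rw [Matrix.map_apply, cc_hg (h t l) (by omega), zero_mul]
  · have := hv l hl
    rw [Pi.basisFun_repr] at this
    rw [this, mul_zero]

theorem red_sq (hW : V.Hg 6 W) (hd : IsMF W p d) : red d * red d = 0 := by
  rw [← red_mul, hd.sq, red, ← map_zero Matrix.toLin']
  congr 1
  ext i j
  simp [cc_hg hW (by norm_num)]

theorem det_hg {f : Matrix ι ι S6} (hf : f ∈ MM p p 0) : V.Hg 0 f.det := by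
  rw [Matrix.det_apply]
  refine hga_sum _ fun s _ => ?_
  have h1 : ∀ T : Finset ι, V.Hg (∑ i ∈ T, (p i - p (s i))) (∏ i ∈ T, f (s i) i) := fun T => by
    induction T using Finset.induction_on with
    | empty => simpa using hga_one
    | insert x T hx ih =>
      rw [Finset.sum_insert hx, Finset.prod_insert hx]
      exact hga_mul' (hf (s x) x) ih (by ring)
  have h2 := h1 Finset.univ
  rw [Finset.sum_sub_distrib, Equiv.sum_comp s p, sub_self] at h2
  rcases Int.units_eq_one_or (Equiv.Perm.sign s) with h | h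
  · rwa [h, one_smul]
  · rw [h, Units.neg_smul, one_smul]
    exact hga_neg h2

theorem det_eq_C {f : Matrix ι ι S6} (hf : f ∈ MM p p 0) : f.det = C (coeff 0 f.det) := by
  ext m
  rw [coeff_C]
  split_ifs with h
  · rw [h]
  · by_contra hc
    have := coeff_hg (det_hg hf) hc
    exact h ((Finsupp.degree_eq_zero_iff m).1 (by omega)).symm

theorem unit_iff {f : Matrix ι ι S6} (hf : f ∈ MM p p 0) : IsUnit f ↔ coeff 0 f.det ≠ 0 := by
  rw [Matrix.isUnit_iff_isUnit_det]
  refine ⟨fun h => (h.map (constantCoeff : S6 →+* ℂ)).ne_zero, fun h => ?_⟩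
  rw [det_eq_C hf]
  exact (IsUnit.mk0 _ h).map C

theorem unit_of_red {f : Matrix ι ι S6} (hf : f ∈ MM p p 0) (h : IsUnit (red f)) : IsUnit f := by
  rw [unit_iff hf, ← constantCoeff_eq, RingHom.map_det, RingHom.mapMatrix_apply,
    ← LinearMap.det_toLin']
  exact (h.map LinearMap.det).ne_zero

/-- An equivalence between factorizations of the same shape is homotopic to an isomorphism. -/
theorem strict (hW : V.Hg 6 W) (hd : IsMF W p d) (hd' : IsMF W p d') (h : Eqv p d d' φ) :
    ∃ k ∈ MM p p (-3), IsUnit (φ + (d' * k + k * d)) := by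
  obtain ⟨h1, ψ, h2, ⟨x, -, h3⟩, y, -, h4⟩ := h
  obtain ⟨k, d1, hu⟩ := lin_iso (h := red x) (h' := red y) (red_dv hd.deg) (red_dv hd'.deg)
    (red_dv h1.1) (red_dv h2.1) (red_sq hW hd) (red_sq hW hd')
    (by rw [← red_mul, h1.2, red_mul]) (by rw [← red_mul, h2.2, red_mul])
    (by rw [← red_mul, ← red_sub_one, h3, red_add, red_mul, red_mul])
    (by rw [← red_mul, ← red_sub_one, h4, red_add, red_mul, red_mul])
  have hk : (LinearMap.toMatrix' k).map C ∈ MM p p (-3) := fun i l => by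
    rw [Matrix.map_apply]
    by_cases hc : -3 + p l - p i = 0
    · rw [hc, ← mul_one (C _), ← smul_eq_C_mul]
      exact hga_smul _ hga_one
    · have := d1 _ _ (basis_mem l) i (by omega)
      rw [Pi.basisFun_repr, Pi.basisFun_apply] at this
      rw [LinearMap.toMatrix'_apply, this, map_zero]
      exact hga_zero _
  have e1 : red ((LinearMap.toMatrix' k).map C) = k := by
    rw [red, Matrix.map_map, ← Matrix.toLin'_toMatrix' k, LinearMap.toMatrix'_toLin']
    refine congrArg _ (Matrix.ext fun i j => ?_)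
    simp
  refine ⟨_, hk, unit_of_red (add_mem h1.1 (add_mem (mm_mul hd'.deg hk (by norm_num))
    (mm_mul hk hd.deg (by norm_num)))) ?_⟩
  rwa [red_add, red_add, red_mul, red_mul, e1]

end Vale.Agent.P287T.Dt
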