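import Vale.Agent.P287T.Dt.Lin

/-!
# The complex of maps from the test object
-/

open MvPolynomial Module

noncomputable section

namespace Vale.Agent.P287T.Dt

open Vale.Agent.P287T.Cy Vale.Agent.P287Z.O Vale.Agent.P287Z.O.L Vale.Agent.P287Z.T

section
variable {ι κ μ : Type}

theorem coeff_hg {n : ℤ} {f : S6} (hf : V.Hg n f) {m : Fin 6 →₀ ℕ} (h : coeff m f ≠ 0) :
    2 * (m.degree : ℤ) = n := by
  by_contra hc
  rw [← hpart_eq_self hf, coeff_hpart, if_neg hc] at h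
  exact h rfl

theorem mm_mul [Fintype κ] {p : ι → ℤ} {q : κ → ℤ} {s : μ → ℤ} {j k l : ℤ} {f : Matrix κ ι S6}
    {g : Matrix μ κ S6} (hg : g ∈ MM q s k) (hf : f ∈ MM p q j) (h : k + j = l) :
    g * f ∈ MM p s l := fun a b => by
  rw [Matrix.mul_apply]
  exact hga_sum _ fun c _ => hga_mul' (hg a c) (hf c b) (by omega)

theorem mm_one [DecidableEq ι] (p : ι → ℤ) : (1 : Matrix ι ι S6) ∈ MM p p 0 := fun a b => by
  rw [Matrix.one_apply]
  split_ifs with h
  · rw [h, zero_add, sub_self]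
    exact hga_one
  · exact hga_zero _

theorem mm_expand [Fintype ι] [Fintype κ] [DecidableEq ι] [DecidableEq κ] (p : ι → ℤ) (q : κ → ℤ)
    (j : ℤ) : ∃ S : Finset (Fin 6 →₀ ℕ), ∀ g ∈ MM p q j,
      g = ∑ a, ∑ b, ∑ m ∈ S, coeff m (g a b) • Matrix.single a b (monomial m (1 : ℂ)) := by
  obtain ⟨B, hB⟩ := (Set.finite_range fun x : κ × ι => j + p x.2 - q x.1).bddAbove
  refine ⟨(Finsupp.finite_of_degree_le B.toNat).toFinset, fun g hg => ?_⟩
  conv_lhs => rw [Matrix.matrix_eq_sum_single g]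
  refine Finset.sum_congr rfl fun a _ => Finset.sum_congr rfl fun b _ => ?_
  have h1 : g a b = ∑ m ∈ (Finsupp.finite_of_degree_le (σ := Fin 6) B.toNat).toFinset,
      coeff m (g a b) • monomial m (1 : ℂ) := by
    conv_lhs => rw [(g a b).as_sum]
    simp only [smul_monomial, smul_eq_mul, mul_one]
    refine Finset.sum_subset (fun m hm => ?_) fun m _ hm => by
      rw [notMem_support_iff.1 hm, monomial_zero]
    have h2 := coeff_hg (hg a b) (mem_support_iff.1 hm)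
    have h3 : j + p b - q a ≤ B := hB ⟨(a, b), rfl⟩
    rw [Set.Finite.mem_toFinset, Set.mem_ofPred_eq]
    omega
  conv_lhs => rw [h1]
  rw [← Matrix.singleLinearMap_apply (R := ℂ), map_sum]
  simp only [map_smul, Matrix.singleLinearMap_apply]

theorem mm_fin [Finite ι] [Finite κ] (p : ι → ℤ) (q : κ → ℤ) (j : ℤ) :
    Module.Finite ℂ (MM p q j) := by
  classical
  have := Fintype.ofFinite ι
  have := Fintype.ofFinite κ
  obtain ⟨S, hS⟩ := mm_expand p q j
  have := FiniteDimensional.span_of_finite ℂ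
    (Set.finite_range fun x : κ × ι × S => Matrix.single x.1 x.2.1 (monomial x.2.2.1 (1 : ℂ)))
  refine Submodule.finiteDimensional_of_le (S₂ := Submodule.span ℂ
    (Set.range fun x : κ × ι × S => Matrix.single x.1 x.2.1 (monomial x.2.2.1 (1 : ℂ))))
    fun g hg => ?_
  rw [hS g hg]
  exact sum_mem fun a _ => sum_mem fun b _ => sum_mem fun m hm =>
    Submodule.smul_mem _ _ (Submodule.subset_span ⟨(a, b, ⟨m, hm⟩), rfl⟩)

end

variable {ι κ : Type} [Fintype ι] [Fintype κ] [DecidableEq ι] [DecidableEq κ]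
  {W : S6} {p : ι → ℤ} {q : κ → ℤ} {e : Matrix κ κ S6} {d d' d'' f g : Matrix ι ι S6} {j : ℤ}

theorem eps_sq (q : κ → ℤ) : eps q * eps q = 1 := by
  rw [eps, Matrix.diagonal_mul_diagonal, ← Matrix.diagonal_one]
  congr 1
  funext l
  split_ifs <;> simp

omit [Fintype κ] in
theorem eps_mem (q : κ → ℤ) : eps q ∈ MM q q 0 := fun a b => by
  rw [eps, Matrix.diagonal_apply]
  split_ifs with h h2
  · rw [h, zero_add, sub_self]
    exact hga_one
  · rw [h, zero_add, sub_self]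
    exact hga_neg hga_one
  · exact hga_zero _

theorem eps_anti (he : e ∈ MM q q 3) : eps q * e = -(e * eps q) := by
  ext a b : 2
  rw [eps, Matrix.neg_apply, Matrix.diagonal_mul, Matrix.mul_diagonal]
  by_cases h : (2 : ℤ) ∣ 3 + q b - q a
  · simp only [Int.even_iff]
    split_ifs with h1 h2 h2
    · omega
    · simp
    · simp
    · omega
  · simp [hga_odd_eq_zero (he a b) h]

omit [DecidableEq ι] in
theorem DD_apply (x : Matrix ι κ S6) : DD q e d x = (d * x - x * e) * eps q := rfl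

omit [Fintype κ] [DecidableEq ι] [DecidableEq κ] in
theorem LL_apply (x : Matrix ι κ S6) : LL κ f x = f * x := rfl

omit [DecidableEq ι] in
theorem DD_eq (he : e ∈ MM q q 3) (x : Matrix ι κ S6) :
    DD q e d x = d * (x * eps q) + x * eps q * e := by
  rw [DD_apply, Matrix.mul_assoc x, eps_anti he, Matrix.sub_mul, Matrix.mul_neg, Matrix.mul_assoc,
    Matrix.mul_assoc, sub_eq_add_neg]

omit [DecidableEq ι] in
theorem ZZ_eq : ZZ q e p d j = MM q p j ⊓ LinearMap.ker (DD q e d) := by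
  ext x
  rw [mem_ZZ, Submodule.mem_inf, LinearMap.mem_ker, DD_apply, ← sub_eq_zero]
  refine and_congr_right fun _ => ⟨fun h => by rw [h, Matrix.zero_mul], fun h => ?_⟩
  rw [← Matrix.mul_one (d * x - x * e), ← eps_sq q, ← Matrix.mul_assoc, h, Matrix.zero_mul]

omit [DecidableEq ι] in
theorem BB_eq (he : e ∈ MM q q 3) : BB q e p d j = (MM q p (j - 3)).map (DD q e d) := by
  ext x
  rw [mem_BB, Submodule.mem_map]
  constructor
  · rintro ⟨h, hh, rfl⟩
    refine ⟨h * eps q, mm_mul hh (eps_mem q) (add_zero _), ?_⟩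
    rw [DD_eq he, Matrix.mul_assoc h, eps_sq, Matrix.mul_one]
  · rintro ⟨h, hh, rfl⟩
    exact ⟨h * eps q, mm_mul hh (eps_mem q) (add_zero _), DD_eq he h⟩

theorem BB_le {μ : Type} [Fintype μ] [DecidableEq μ] {s : μ → ℤ} {c : Matrix μ μ S6}
    (hc : IsMF W s c) (hd : IsMF W p d) : BB s c p d j ≤ ZZ s c p d j := by
  rintro _ ⟨h, hh, rfl⟩
  refine ⟨add_mem (mm_mul hd.deg hh (by omega)) (mm_mul hh hc.deg (by omega)), ?_⟩
  rw [Matrix.mul_add, Matrix.add_mul, ← Matrix.mul_assoc, hd.sq, Matrix.mul_assoc,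
    Matrix.mul_assoc, hc.sq]
  simp [add_comm]

omit [DecidableEq ι] in
theorem DD_LL (hf : d' * f = f * d) (x : Matrix ι κ S6) :
    DD q e d' (f * x) = f * DD q e d x := by
  rw [DD_apply, DD_apply, ← Matrix.mul_assoc, hf, ← Matrix.mul_assoc, Matrix.mul_sub,
    Matrix.mul_assoc, Matrix.mul_assoc]

omit [DecidableEq ι] [DecidableEq κ] in
theorem ZZ_mul {μ : Type} [Fintype μ] {s : μ → ℤ} {c : Matrix μ μ S6} {x : Matrix ι κ S6}
    {y : Matrix μ ι S6} (hy : y ∈ ZZ p d s c 0) (hx : x ∈ ZZ q e p d j) :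
    y * x ∈ ZZ q e s c j :=
  ⟨mm_mul hy.1 hx.1 (zero_add _), by
    rw [← Matrix.mul_assoc, hy.2, Matrix.mul_assoc, hx.2, Matrix.mul_assoc]⟩

omit [DecidableEq ι] [DecidableEq κ] in
theorem ZB_mul {μ : Type} [Fintype μ] {s : μ → ℤ} {c : Matrix μ μ S6} {x : Matrix ι κ S6}
    {y : Matrix μ ι S6} (hy : y ∈ ZZ p d s c 0) (hx : x ∈ BB q e p d j) :
    y * x ∈ BB q e s c j := by
  obtain ⟨h, hh, rfl⟩ := hx
  refine ⟨y * h, mm_mul hy.1 hh (zero_add _), ?_⟩
  rw [Matrix.mul_add, ← Matrix.mul_assoc, ← hy.2, Matrix.mul_assoc, Matrix.mul_assoc]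

omit [DecidableEq ι] [DecidableEq κ] in
theorem BZ_mul {μ : Type} [Fintype μ] {s : μ → ℤ} {c : Matrix μ μ S6} {x : Matrix ι κ S6}
    {y : Matrix μ ι S6} (hy : y ∈ BB p d s c 0) (hx : x ∈ ZZ q e p d j) :
    y * x ∈ BB q e s c j := by
  obtain ⟨h, hh, rfl⟩ := hy
  refine ⟨h * x, mm_mul hh hx.1 (by omega), ?_⟩
  rw [Matrix.add_mul, Matrix.mul_assoc, Matrix.mul_assoc, hx.2, Matrix.mul_assoc]

omit [DecidableEq ι] [DecidableEq κ] in
theorem zz_fin : Module.Finite ℂ (ZZ q e p d j) :=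
  have := mm_fin q p j
  Submodule.finiteDimensional_of_le (S₂ := MM q p j) fun _ h => h.1

/-- the inverse of an invertible matrix of degree zero -/
theorem inv_mem (hf : f ∈ MM p p 0) (hu : IsUnit f) :
    ∃ g ∈ MM p p 0, g * f = 1 ∧ f * g = 1 := by
  have := mm_fin p p 0
  have h1 : ∀ x ∈ MM p p 0, LL ι f x ∈ MM p p 0 := fun x hx => mm_mul hf hx (zero_add _)
  have h2 : Function.Injective ((LL ι f).restrict h1) := fun x y h =>
    Subtype.ext (hu.mul_left_cancel (congrArg Subtype.val h))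
  obtain ⟨g, hg⟩ := LinearMap.surjective_of_injective h2 ⟨1, mm_one p⟩
  have h3 : f * g = 1 := congrArg Subtype.val hg
  exact ⟨g, g.2, mul_eq_one_comm.1 h3, h3⟩

theorem inv_zz (hf : f ∈ ZZ p d p d' 0) (hu : IsUnit f) :
    ∃ g ∈ ZZ p d' p d 0, g * f = 1 ∧ f * g = 1 := by
  obtain ⟨g, h1, h2, h3⟩ := inv_mem hf.1 hu
  refine ⟨g, ⟨h1, ?_⟩, h2, h3⟩
  calc d * g = g * f * d * g := by rw [h2, Matrix.one_mul]
    _ = g * d' * (f * g) := by rw [Matrix.mul_assoc g, ← hf.2]; simp only [Matrix.mul_assoc]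
    _ = g * d' := by rw [h3, Matrix.mul_one]

variable {a : ℤ} {n : ℕ}

omit [DecidableEq ι] [DecidableEq κ] in
theorem BB_lo (h : Lo p q a) : BB q e p d (3 * a) = ⊥ := by
  rw [eq_bot_iff]
  rintro _ ⟨x, hx, rfl⟩
  have : x = 0 := Matrix.ext fun i l => hga_neg_eq_zero (hx i l) (h l i)
  simp [this]

/-- the rank formula -/
theorem rank_eq (hE : IsMF W q e) (hd : IsMF W p d) (h : Lo p q a) :
    (∑ k ∈ Finset.range n, (-1 : ℤ) ^ k * finrank ℂ (MM q p (3 * (a + k)))) +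
      (-1 : ℤ) ^ n * finrank ℂ (BB q e p d (3 * (a + n))) = Chi p q e a n d := by
  refine tele_rk (fun k => finrank ℂ (MM q p (3 * (a + k))))
    (fun k => finrank ℂ (ZZ q e p d (3 * (a + k)))) (fun k => finrank ℂ (BB q e p d (3 * (a + k))))
    (fun k => finrank ℂ (HH q e p d (3 * (a + k)))) ?_ (fun k => ?_) (fun k => ?_) n
  · rw [Nat.cast_zero, add_zero, BB_lo h, finrank_bot]
  · have := mm_fin q p (3 * (a + k))
    rw [ZZ_eq, BB_eq hE.deg, show 3 * (a + ((k + 1 : ℕ) : ℤ)) - 3 = 3 * (a + k) by push_cast; ring]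
    exact finrank_map _
  · have := zz_fin (q := q) (e := e) (p := p) (d := d) (j := 3 * (a + k))
    exact finrank_hq (BB_le hE hd)

/-- the alternating determinant of an automorphism homotopic to a scalar -/
theorem det_aut (hE : IsMF W q e) (hd : IsMF W p d) (h : Lo p q a) (hf : f ∈ ZZ p d p d 0)
    (hu : IsUnit f) {c : ℂ} (hc : c ≠ 0) (hb : f - c • (1 : Matrix ι ι S6) ∈ BB p d p d 0) :
    (∏ k ∈ Finset.range n, dt (LL κ f) (MM q p (3 * (a + k))) ^ ((-1 : ℤ) ^ k)) *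
      dt (LL κ f) (BB q e p d (3 * (a + n))) ^ ((-1 : ℤ) ^ n) = c ^ Chi p q e a n d := by
  obtain ⟨g, hg, h1, -⟩ := inv_zz hf hu
  refine tele (fun k => dt (LL κ f) (MM q p (3 * (a + k))))
    (fun k => dt (LL κ f) (ZZ q e p d (3 * (a + k))))
    (fun k => dt (LL κ f) (BB q e p d (3 * (a + k)))) c
    (fun k => finrank ℂ (HH q e p d (3 * (a + k)))) (fun k => ?_) hc ?_ (fun k => ?_)
    (fun k => ?_) n
  · have := zz_fin (q := q) (e := e) (p := p) (d := d) (j := 3 * (a + k))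
    have := Submodule.finiteDimensional_of_le (BB_le (j := 3 * (a + k)) hE hd)
    refine dt_ne (v := LL κ g) (fun x hx => ZB_mul hf hx) (fun x hx => ZB_mul hg hx) fun x _ => ?_
    rw [LL_apply, LL_apply, ← Matrix.mul_assoc, h1, Matrix.one_mul]
  · simp only [Nat.cast_zero, add_zero]
    rw [BB_lo h]
    exact (dt_congr (v := LinearMap.id) fun x hx => by
      rw [(Submodule.mem_bot _).1 hx, map_zero, map_zero]).trans (dt_id _)
  · have := mm_fin q p (3 * (a + k))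
    rw [ZZ_eq, BB_eq hE.deg, show 3 * (a + ((k + 1 : ℕ) : ℤ)) - 3 = 3 * (a + k) by push_cast; ring]
    exact dt_map _ (fun x hx => mm_mul hf.1 hx (zero_add _)) fun x => DD_LL hf.2 x
  · have := zz_fin (q := q) (e := e) (p := p) (d := d) (j := 3 * (a + k))
    refine dt_scalar (BB_le hE hd) (fun x hx => ZB_mul hf hx) (fun x hx => ZZ_mul hf hx) c
      fun x hx => ?_
    have h2 := BZ_mul hb hx
    rwa [Matrix.sub_mul, Matrix.smul_mul, Matrix.one_mul] at h2

end Vale.Agent.P287T.Dt
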