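import Vale.Agent.P287T.Cy.Defs

/-!
# Canonical normalisation of equivalences of simple matrix factorizations: definitions

All factorizations `d` have the same charges `p`. A test object `(q, e)` is fixed; the complex
`Hom((q, e), (p, d))` is used in the degrees `3 (a + k)`, `k < n`.
-/

set_option linter.unusedVariables false

open MvPolynomial Module

noncomputable section

namespace Vale.Agent.P287T.Dt

open Vale.Agent.P287T.Cy

/-- the determinant of `u` on an invariant subspace -/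
def dt {U : Type} [AddCommGroup U] [Module ℂ U] (u : U →ₗ[ℂ] U) (S : Submodule ℂ U) : ℂ :=
  open Classical in
  if h : ∀ x ∈ S, u x ∈ S then LinearMap.det (u.restrict h) else 1

variable {ι κ : Type} [Fintype ι] [Fintype κ] [DecidableEq ι] [DecidableEq κ]

/-- the parity operator -/
def eps (q : κ → ℤ) : Matrix κ κ S6 := Matrix.diagonal fun l => if Even (q l) then 1 else -1

/-- the differential of the complex of maps from `(q, e)` to `(p, d)` -/
def DD (q : κ → ℤ) (e : Matrix κ κ S6) (d : Matrix ι ι S6) :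
    Matrix ι κ S6 →ₗ[ℂ] Matrix ι κ S6 where
  toFun g := (d * g - g * e) * eps q
  map_add' g h := by
    rw [← Matrix.add_mul, Matrix.mul_add, Matrix.add_mul]
    congr 1
    abel
  map_smul' c g := by
    rw [RingHom.id_apply, Matrix.mul_smul, Matrix.smul_mul, ← smul_sub, Matrix.smul_mul]

variable (κ) in
/-- left multiplication -/
def LL (f : Matrix ι ι S6) : Matrix ι κ S6 →ₗ[ℂ] Matrix ι κ S6 where
  toFun g := f * g
  map_add' g h := Matrix.mul_add _ _ _
  map_smul' c g := Matrix.mul_smul _ _ _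

/-- frames for the space of boundaries in the top degree -/
structure Fr (ι κ : Type) (r : ℕ) where
  al : Fin r → Matrix ι κ S6
  be : Fin r → (Matrix ι κ S6 →ₗ[ℂ] ℂ)

variable (p : ι → ℤ) (q : κ → ℤ) (e : Matrix κ κ S6) (a : ℤ) (n : ℕ) {r : ℕ}

/-- the determinant of `f` in the frames -/
def frd (d : Matrix ι ι S6) (F F' : Fr ι κ r) (f : Matrix ι ι S6) : ℂ :=
  (Matrix.of fun i j => F'.be i (f * DD q e d (F.al j))).det

/-- the frame `F` is admissible for `d` -/
structure Adm (d : Matrix ι ι S6) (F : Fr ι κ r) : Prop where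
  mem : ∀ j, F.al j ∈ MM q p (3 * (a + n) - 3)
  ne : frd q e d F F 1 ≠ 0
  rk : finrank ℂ (BB q e p d (3 * (a + n))) = r

/-- the alternating determinant of an isomorphism `f` from `d` to `d'` -/
def del (d : Matrix ι ι S6) (F : Fr ι κ r) (d' : Matrix ι ι S6) (F' : Fr ι κ r)
    (f : Matrix ι ι S6) : ℂ :=
  (∏ k ∈ Finset.range n, dt (LL κ f) (MM q p (3 * (a + k))) ^ ((-1 : ℤ) ^ k)) *
    (frd q e d F F' f / frd q e d' F' F' 1) ^ ((-1 : ℤ) ^ n)

/-- the truncated Euler characteristic -/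
def Chi (d : Matrix ι ι S6) : ℤ :=
  ∑ k ∈ Finset.range n, (-1 : ℤ) ^ k * finrank ℂ (HH q e p d (3 * (a + k)))

/-- there are no maps below the degree `3 a` -/
def Lo : Prop := ∀ l i, 3 * a - 3 + q l - p i < 0

/-- normalised equivalences -/
def Nrm (d : Matrix ι ι S6) (F : Fr ι κ r) (d' : Matrix ι ι S6) (F' : Fr ι κ r)
    (φ : Matrix ι ι S6) : Prop :=
  ∃ f ∈ ZZ p d p d' 0, IsUnit f ∧ φ - f ∈ BB p d p d' 0 ∧ del p q e a n d F d' F' f = 1

/-- `φ` is a homotopy equivalence from `(p, d)` to `(p, d')` -/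
def Eqv (d d' φ : Matrix ι ι S6) : Prop :=
  φ ∈ ZZ p d p d' 0 ∧ ∃ ψ ∈ ZZ p d' p d 0,
    ψ * φ - 1 ∈ BB p d p d 0 ∧ φ * ψ - 1 ∈ BB p d' p d' 0

/-- all closed endomorphisms are homotopic to scalars -/
def Simp (d : Matrix ι ι S6) : Prop :=
  ∀ u ∈ ZZ p d p d 0, ∃ c : ℂ, u - c • (1 : Matrix ι ι S6) ∈ BB p d p d 0

/-- the coefficients of the family `M` belong to the algebra of functions `A` -/
def Fam {T μ ν : Type} (A : Subalgebra ℂ (T → ℂ)) (M : T → Matrix μ ν S6) : Prop :=
  ∀ i l m, (fun t => coeff m (M t i l)) ∈ A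

end Vale.Agent.P287T.Dt
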