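import Vale.Agent.P287T.Dt.Cx
import Mathlib.LinearAlgebra.Matrix.ToLinearEquiv

/-!
# The alternating determinant
-/

open MvPolynomial Module

noncomputable section

namespace Vale.Agent.P287T.Dt

open Vale.Agent.P287T.Cy Vale.Agent.P287Z.O Vale.Agent.P287Z.O.L Vale.Agent.P287Z.T

variable {ι κ : Type} [Fintype ι] [Fintype κ] [DecidableEq ι] [DecidableEq κ]
  {W : S6} {p : ι → ℤ} {q : κ → ℤ} {e : Matrix κ κ S6} {d d' d'' f g : Matrix ι ι S6}
  {a : ℤ} {n r : ℕ} {F F' F'' : Fr ι κ r}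

theorem Adm.gam_mem (hE : IsMF W q e) (h : Adm p q e a n d F) (j : Fin r) :
    DD q e d (F.al j) ∈ BB q e p d (3 * (a + n)) := by
  rw [BB_eq hE.deg]
  exact Submodule.mem_map_of_mem (h.mem j)

theorem bb_fin (hE : IsMF W q e) (hd : IsMF W p d) (j : ℤ) : Module.Finite ℂ (BB q e p d j) :=
  have := zz_fin (q := q) (e := e) (p := p) (d := d) (j := j)
  Submodule.finiteDimensional_of_le (BB_le hE hd)

/-- the basis given by an admissible frame -/
theorem Adm.equiv (hE : IsMF W q e) (hd : IsMF W p d) (h : Adm p q e a n d F) :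
    ∃ φ : (Fin r → ℂ) ≃ₗ[ℂ] BB q e p d (3 * (a + n)),
      ∀ x, (φ x : Matrix ι κ S6) = ∑ j, x j • DD q e d (F.al j) := by
  have := bb_fin hE hd (3 * (a + n))
  let ψ : (Fin r → ℂ) →ₗ[ℂ] BB q e p d (3 * (a + n)) :=
    Fintype.linearCombination ℂ fun j => ⟨_, h.gam_mem hE j⟩
  have h1 : ∀ x, (ψ x : Matrix ι κ S6) = ∑ j, x j • DD q e d (F.al j) := fun x => by
    simp [ψ, Fintype.linearCombination_apply]
  have h2 : Function.Injective ψ := by
    rw [injective_iff_map_eq_zero]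
    intro x hx
    refine Matrix.eq_zero_of_mulVec_eq_zero h.ne (funext fun i => ?_)
    have h3 := congrArg (F.be i) ((h1 x).symm.trans (congrArg Subtype.val hx))
    simpa [Matrix.mulVec, dotProduct, mul_comm] using h3
  exact ⟨LinearMap.linearEquivOfInjective ψ h2 (by rw [h.rk, Module.finrank_fin_fun]), h1⟩

theorem exists_mat (hE : IsMF W q e) (hd' : IsMF W p d') (h : Adm p q e a n d F)
    (h' : Adm p q e a n d' F') (hf : f ∈ ZZ p d p d' 0) :
    ∃ m : Matrix (Fin r) (Fin r) ℂ, ∀ j,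
      f * DD q e d (F.al j) = ∑ i, m i j • DD q e d' (F'.al i) := by
  obtain ⟨φ, hφ⟩ := h'.equiv hE hd'
  refine ⟨fun i j => φ.symm ⟨_, ZB_mul hf (h.gam_mem hE j)⟩ i, fun j => ?_⟩
  rw [← hφ, φ.apply_symm_apply]

omit [DecidableEq ι] in
theorem frd_mat {m : Matrix (Fin r) (Fin r) ℂ}
    (hm : ∀ j, f * DD q e d (F.al j) = ∑ i, m i j • DD q e d' (F'.al i)) (g : Matrix ι ι S6) :
    frd q e d F F'' (g * f) = frd q e d' F' F'' g * m.det := by
  rw [frd, frd, ← Matrix.det_mul]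
  congr 1
  ext i j
  rw [Matrix.of_apply, Matrix.mul_assoc, hm, Matrix.mul_sum, map_sum, Matrix.mul_apply]
  exact Finset.sum_congr rfl fun k _ => by
    rw [Matrix.mul_smul, map_smul, smul_eq_mul, mul_comm, Matrix.of_apply]

theorem frd_mul (hE : IsMF W q e) (hd' : IsMF W p d') (h : Adm p q e a n d F)
    (h' : Adm p q e a n d' F') (hf : f ∈ ZZ p d p d' 0) (g : Matrix ι ι S6) :
    frd q e d F F'' (g * f) * frd q e d' F' F' 1 = frd q e d' F' F'' g * frd q e d F F' f := by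
  obtain ⟨m, hm⟩ := exists_mat hE hd' h h' hf
  have h1 := frd_mat (F'' := F') hm 1
  rw [Matrix.one_mul] at h1
  rw [frd_mat hm, h1]
  ring

theorem frd_aut (hE : IsMF W q e) (hd : IsMF W p d) (h : Adm p q e a n d F)
    (hf : f ∈ ZZ p d p d 0) :
    frd q e d F F f / frd q e d F F 1 = dt (LL κ f) (BB q e p d (3 * (a + n))) := by
  obtain ⟨m, hm⟩ := exists_mat hE hd h h hf
  obtain ⟨φ, hφ⟩ := h.equiv hE hd
  have h1 := frd_mat (F'' := F) hm 1
  rw [Matrix.one_mul] at h1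
  rw [h1, mul_div_cancel_left₀ _ h.ne, ← LinearMap.det_toLin']
  refine (dt_conj (fun x hx => ZB_mul hf hx) φ _ fun x => ?_).symm
  rw [hφ, hφ, map_sum]
  simp only [map_smul, LL_apply, hm, Finset.smul_sum, smul_smul, Matrix.toLin'_apply,
    Matrix.mulVec, dotProduct, Finset.sum_smul]
  rw [Finset.sum_comm]
  simp only [mul_comm]

omit [DecidableEq ι] in
theorem frd_smul (c : ℂ) : frd q e d F F' (c • f) = c ^ r * frd q e d F F' f := by
  have h := Matrix.det_smul (Matrix.of fun i j => F'.be i (f * DD q e d (F.al j))) c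
  rw [Fintype.card_fin] at h
  rw [frd, frd, ← h]
  congr 1
  ext i j
  simp

theorem del_one (h : Adm p q e a n d F) : del p q e a n d F d F 1 = 1 := by
  rw [del, div_self h.ne, one_zpow, mul_one]
  refine Finset.prod_eq_one fun k _ => ?_
  rw [(dt_congr (v := LinearMap.id) fun x _ => Matrix.one_mul x).trans (dt_id _), one_zpow]

theorem del_mul (hE : IsMF W q e) (hd' : IsMF W p d') (h : Adm p q e a n d F)
    (h' : Adm p q e a n d' F') (hf : f ∈ ZZ p d p d' 0) (hg : g ∈ MM p p 0) :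
    del p q e a n d F d'' F'' (g * f) =
      del p q e a n d' F' d'' F'' g * del p q e a n d F d' F' f := by
  have h1 : ∀ k : ℕ, dt (LL κ (g * f)) (MM q p (3 * (a + k))) =
      dt (LL κ g) (MM q p (3 * (a + k))) * dt (LL κ f) (MM q p (3 * (a + k))) := fun k => by
    rw [← dt_mul (fun x hx => mm_mul hg hx (zero_add _)) fun x hx => mm_mul hf.1 hx (zero_add _)]
    exact dt_congr fun x _ => Matrix.mul_assoc g f x
  have h2 := eq_div_of_mul_eq h'.ne (frd_mul (F'' := F'') hE hd' h h' hf g)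
  rw [del, del, del, h2]
  simp only [h1, mul_zpow, Finset.prod_mul_distrib]
  rw [mul_mul_mul_comm, ← mul_zpow]
  congr 2
  ring

theorem del_aut (hE : IsMF W q e) (hd : IsMF W p d) (hL : Lo p q a) (h : Adm p q e a n d F)
    (hf : f ∈ ZZ p d p d 0) (hu : IsUnit f) {c : ℂ} (hc : c ≠ 0)
    (hb : f - c • (1 : Matrix ι ι S6) ∈ BB p d p d 0) :
    del p q e a n d F d F f = c ^ Chi p q e a n d := by
  rw [del, frd_aut hE hd h hf, det_aut hE hd hL hf hu hc hb]

theorem one_zz : (1 : Matrix ι ι S6) ∈ ZZ p d p d 0 := ⟨mm_one p, by simp⟩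

omit [Fintype κ] [DecidableEq κ] in
theorem unit_smul {c : ℂ} (hc : c ≠ 0) (hu : IsUnit f) : IsUnit (c • f) := by
  rw [Algebra.smul_def]
  exact ((IsUnit.mk0 c hc).map _).mul hu

theorem del_smul (hE : IsMF W q e) (hd : IsMF W p d) (hL : Lo p q a) (h : Adm p q e a n d F)
    (hf : f ∈ MM p p 0) {c : ℂ} (hc : c ≠ 0) :
    del p q e a n d F d' F' (c • f) = c ^ Chi p q e a n d * del p q e a n d F d' F' f := by
  have h1 : c • (1 : Matrix ι ι S6) ∈ ZZ p d p d 0 := Submodule.smul_mem _ _ one_zz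
  rw [← del_aut hE hd hL h h1 (unit_smul hc isUnit_one) hc (by rw [sub_self]; exact zero_mem _),
    mul_comm, ← del_mul hE hd h h h1 hf, Matrix.mul_smul, Matrix.mul_one]

theorem del_ne (hE : IsMF W q e) (hd' : IsMF W p d') (h : Adm p q e a n d F)
    (h' : Adm p q e a n d' F') (hf : f ∈ ZZ p d p d' 0) (hu : IsUnit f) :
    del p q e a n d F d' F' f ≠ 0 := by
  obtain ⟨g, hg, h1, -⟩ := inv_zz hf hu
  have h2 := del_mul (d'' := d) (F'' := F) hE hd' h h' hf hg.1
  rw [h1, del_one h] at h2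
  exact right_ne_zero_of_mul_eq_one h2.symm

end Vale.Agent.P287T.Dt
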