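import Vale.Agent.P287T.Dt.Reg
import Mathlib.LinearAlgebra.Matrix.Adjugate

/-!
# Generalised inverses of families of linear maps of constant rank
-/

open MvPolynomial Module

noncomputable section

namespace Vale.Agent.P287T.Dt

open Vale.Agent.P287T.Cy

variable {T : Type} {A : Subalgebra ℂ (T → ℂ)}

/-- partitions of unity -/
def PU (A : Subalgebra ℂ (T → ℂ)) : Prop :=
  ∀ w : T → T → ℂ, (∀ i, w i ∈ A) → (∀ i, w i i ≠ 0) →
    ∃ (s : Finset T) (a : T → T → ℂ), (∀ i, a i ∈ A) ∧ ∀ t, ∑ i ∈ s, a i t * w i t = 1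

section

variable {U U' : Type} [AddCommGroup U] [Module ℂ U] [AddCommGroup U'] [Module ℂ U']

/-- regular families of vectors of `V` -/
def RG (A : Subalgebra ℂ (T → ℂ)) (V : Submodule ℂ U) : Submodule ℂ (T → U) :=
  Submodule.span ℂ {x | ∃ c ∈ A, ∃ u ∈ V, x = fun t => c t • u}

variable {V : Submodule ℂ U} {V' : Submodule ℂ U'} {x : T → U}

theorem rg_of {c : T → ℂ} (hc : c ∈ A) {u : U} (hu : u ∈ V) : (fun t => c t • u) ∈ RG A V :=
  Submodule.subset_span ⟨c, hc, u, hu, rfl⟩

theorem rg_const {u : U} (hu : u ∈ V) : (fun _ => u) ∈ RG A V := by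
  simpa using rg_of (fun_const_mem (A := A) 1) hu

theorem rg_sum {α : Type} (s : Finset α) {x : α → T → U} (h : ∀ i ∈ s, x i ∈ RG A V) :
    (fun t => ∑ i ∈ s, x i t) ∈ RG A V := by
  rw [← Finset.sum_fn]
  exact sum_mem h

theorem rg_ind {P : (T → U) → Prop} (h : x ∈ RG A V)
    (h1 : ∀ c ∈ A, ∀ u ∈ V, P fun t => c t • u) (h0 : P fun _ => 0)
    (h2 : ∀ x y, P x → P y → P fun t => x t + y t) : P x := by
  have key : ∀ z : ℂ, P (z • x) := by
    induction h using Submodule.span_induction with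
    | mem x hx =>
      obtain ⟨c, hc, u, hu, rfl⟩ := hx
      intro z
      have := h1 _ (A.smul_mem hc z) u hu
      simp only [Pi.smul_apply, smul_assoc] at this
      exact this
    | zero =>
      intro z
      rw [smul_zero]
      exact h0
    | add x y _ _ a b =>
      intro z
      rw [smul_add]
      exact h2 _ _ (a z) (b z)
    | smul a x _ b =>
      intro z
      rw [smul_smul]
      exact b _
  simpa using key 1

theorem rg_mem (h : x ∈ RG A V) (t : T) : x t ∈ V :=
  rg_ind (P := fun x => x t ∈ V) h (fun _ _ _ hu => V.smul_mem _ hu) (zero_mem _)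
    fun _ _ => add_mem

theorem rg_smul {c : T → ℂ} (hc : c ∈ A) (h : x ∈ RG A V) : (fun t => c t • x t) ∈ RG A V := by
  refine rg_ind (P := fun x => (fun t => c t • x t) ∈ RG A V) h (fun c' hc' u hu => ?_) ?_
    fun x y a b => ?_
  · simp only [smul_smul]
    exact rg_of (mul_mem hc hc') hu
  · simp only [smul_zero]
    exact zero_mem _
  · simp only [smul_add]
    exact add_mem a b

theorem rg_app {L : T → U →ₗ[ℂ] U'} (hL : ∀ u ∈ V, (fun t => L t u) ∈ RG A V')
    (h : x ∈ RG A V) : (fun t => L t (x t)) ∈ RG A V' := by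
  refine rg_ind (P := fun x => (fun t => L t (x t)) ∈ RG A V') h (fun c hc u hu => ?_) ?_
    fun x y a b => ?_
  · simp only [map_smul]
    exact rg_smul hc (hL u hu)
  · simp only [map_zero]
    exact zero_mem _
  · simp only [map_add]
    exact add_mem a b

theorem rg_lin (h : x ∈ RG A V) (l : U →ₗ[ℂ] ℂ) : (fun t => l (x t)) ∈ A := by
  refine rg_ind (P := fun x => (fun t => l (x t)) ∈ A) h (fun c hc u _ => ?_) ?_
    fun x y a b => ?_
  · simp only [map_smul, smul_eq_mul]
    exact mul_mem hc (fun_const_mem _)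
  · simp only [map_zero]
    exact fun_const_mem _
  · simp only [map_add]
    exact add_mem a b

theorem adj_mem {r : ℕ} {M : T → Matrix (Fin r) (Fin r) ℂ} (h : ∀ i j, (fun t => M t i j) ∈ A)
    (i j : Fin r) : (fun t => (M t).adjugate i j) ∈ A := by
  simp only [Matrix.adjugate_apply]
  refine det_mem fun a b => ?_
  simp only [Matrix.updateRow_apply]
  split_ifs
  · exact fun_const_mem _
  · exact h a b

theorem ginv_loc [Module.Finite ℂ V] {L : T → U →ₗ[ℂ] U'}
    (hL : ∀ u ∈ V, ∀ l : U' →ₗ[ℂ] ℂ, (fun t => l (L t u)) ∈ A) {r : ℕ}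
    (hr : ∀ t, finrank ℂ (V.map (L t)) = r) (t₀ : T) :
    ∃ w ∈ A, w t₀ ≠ 0 ∧ ∃ G : T → U' →ₗ[ℂ] U, (∀ y, (fun t => G t y) ∈ RG A V) ∧
      ∀ t, ∀ u ∈ V, L t (G t (L t u)) = w t • L t u := by
  let b := Module.finBasisOfFinrankEq ℂ _ (hr t₀)
  choose al h2 h3 using fun j => Submodule.mem_map.1 (b j).2
  choose be h4 using fun i => (b.coord i).exists_extend
  let M : T → Matrix (Fin r) (Fin r) ℂ := fun t => Matrix.of fun i j => be i (L t (al j))
  have hM : ∀ i j, (fun t => M t i j) ∈ A := fun i j => hL _ (h2 j) _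
  have h5 : M t₀ = 1 := by
    ext i j
    change be i (L t₀ (al j)) = _
    rw [h3]
    refine (LinearMap.congr_fun (h4 i) (b j)).trans ?_
    simp [Matrix.one_apply, Finsupp.single_apply, eq_comm]
  refine ⟨fun t => (M t).det * (M t).det, mul_mem (det_mem hM) (det_mem hM), by simp [h5],
    fun t => ∑ j, ∑ i, ((M t).det * (M t).adjugate j i) • (be i).smulRight (al j), fun y => ?_,
    fun t u hu => ?_⟩
  · simp only [LinearMap.sum_apply, LinearMap.smul_apply, LinearMap.smulRight_apply, smul_smul]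
    exact rg_sum _ fun j _ => rg_sum _ fun i _ => rg_of
      (mul_mem (mul_mem (det_mem hM) (adj_mem hM j i)) (fun_const_mem _)) (h2 j)
  by_cases h0 : (M t).det = 0
  · simp [h0]
  let ψ : (Fin r → ℂ) →ₗ[ℂ] V.map (L t) :=
    Fintype.linearCombination ℂ fun j => ⟨_, Submodule.mem_map_of_mem (h2 j)⟩
  have h1 : ∀ x, (ψ x : U') = ∑ j, x j • L t (al j) := fun x => by
    simp [ψ, Fintype.linearCombination_apply]
  have k1 : ∀ x i, be i (∑ j, x j • L t (al j)) = (M t).mulVec x i := fun x i => by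
    simp [M, Matrix.mulVec, dotProduct, mul_comm]
  have k2 : Function.Injective ψ := by
    rw [injective_iff_map_eq_zero]
    intro x hx
    refine Matrix.eq_zero_of_mulVec_eq_zero h0 (funext fun i => ?_)
    rw [← k1, ← h1, hx]
    simp
  obtain ⟨c, hc⟩ := (LinearMap.injective_iff_surjective_of_finrank_eq_finrank
    (by rw [hr, Module.finrank_fin_fun])).1 k2 ⟨_, Submodule.mem_map_of_mem hu⟩
  have k3 : L t u = ∑ j, c j • L t (al j) := (congrArg Subtype.val hc).symm.trans (h1 c)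
  have k4 : ∀ j, ∑ i, (M t).adjugate j i * be i (L t u) = (M t).det * c j := fun j => by
    have := congrFun (Matrix.mulVec_mulVec c (M t).adjugate (M t)) j
    rw [Matrix.adjugate_mul, Matrix.smul_mulVec, Matrix.one_mulVec] at this
    simp only [k3, k1]
    exact this
  simp only [LinearMap.sum_apply, LinearMap.smul_apply, LinearMap.smulRight_apply, smul_smul,
    ← Finset.sum_smul, mul_assoc, ← Finset.mul_sum, k4, map_sum, map_smul]
  rw [k3, Finset.smul_sum]
  simp only [smul_smul, mul_assoc]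

/-- generalised inverses -/
theorem ginv [Module.Finite ℂ V] (hA : PU A) {L : T → U →ₗ[ℂ] U'}
    (hL : ∀ u ∈ V, ∀ l : U' →ₗ[ℂ] ℂ, (fun t => l (L t u)) ∈ A) {r : ℕ}
    (hr : ∀ t, finrank ℂ (V.map (L t)) = r) :
    ∃ G : T → U' →ₗ[ℂ] U, (∀ y, (fun t => G t y) ∈ RG A V) ∧
      ∀ t, ∀ u ∈ V, L t (G t (L t u)) = L t u := by
  choose w h1 h2 G h3 h4 using ginv_loc hL hr
  obtain ⟨s, a, h5, h6⟩ := hA w h1 h2
  refine ⟨fun t => ∑ i ∈ s, a i t • G i t, fun y => ?_, fun t u hu => ?_⟩
  · simp only [LinearMap.sum_apply, LinearMap.smul_apply]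
    exact rg_sum _ fun i _ => rg_smul (h5 i) (h3 i y)
  · simp only [LinearMap.sum_apply, LinearMap.smul_apply, map_sum, map_smul, h4 _ t u hu,
      smul_smul, ← Finset.sum_smul, h6, one_smul]

end

variable {ι κ : Type} {p : ι → ℤ} {q : κ → ℤ} {j : ℤ} {M : T → Matrix κ ι S6}

theorem fam_of_rg {V : Submodule ℂ (Matrix κ ι S6)} (h : M ∈ RG A V) : Fam A M := fun i l m =>
  rg_lin h (lcoeff ℂ m ∘ₗ Matrix.entryLinearMap ℂ S6 i l)

theorem rg_of_fam [Finite ι] [Finite κ] (h : Fam A M) (hM : ∀ t, M t ∈ MM p q j) :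
    M ∈ RG A (MM p q j) := by
  classical
  have := Fintype.ofFinite ι
  have := Fintype.ofFinite κ
  obtain ⟨S, hS⟩ := mm_expand p q j
  rw [funext fun t => hS _ (hM t)]
  refine rg_sum _ fun a _ => rg_sum _ fun b _ => rg_sum _ fun m _ => ?_
  by_cases hc : 2 * (m.degree : ℤ) = j + p b - q a
  · refine rg_of (h a b m) fun i l => ?_
    rw [Matrix.single_apply]
    split_ifs with h1
    · rw [← h1.1, ← h1.2, ← hc]
      refine isWeightedHomogeneous_monomial _ _ _ ?_
      simp [Finsupp.weight_apply, Finsupp.degree_apply, Finsupp.sum, Finset.mul_sum, mul_comm]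
    · exact Vale.Agent.P287Z.O.L.hga_zero _
  · have : ∀ t, coeff m (M t a b) = 0 := fun t => by_contra fun h1 => hc (coeff_hg (hM t a b) h1)
    simp only [this, zero_smul]
    exact zero_mem _

end Vale.Agent.P287T.Dt
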