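import Vale.Agent.P287T.Dt.Gi
import Vale.Agent.P287T.Au.Defs

/-!
# Global normalised isomorphisms of families of simple factorizations
-/

open MvPolynomial Module

noncomputable section

namespace Vale.Agent.P287T.Dt

open Vale.Agent.P287T.Cy Vale.Agent.P287T.Au Vale.Agent.P287Z.O Vale.Agent.P287Z.T

variable {ι : Type} [Fintype ι] [DecidableEq ι] {W : S6} {p : ι → ℤ} {d d' : Matrix ι ι S6}
  {j k : ℤ}

/-- the boundary of a homotopy -/
def bd (d d' : Matrix ι ι S6) : Matrix ι ι S6 →ₗ[ℂ] Matrix ι ι S6 where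
  toFun h := d' * h + h * d
  map_add' g h := by
    rw [Matrix.mul_add, Matrix.add_mul]
    abel
  map_smul' c g := by rw [RingHom.id_apply, Matrix.mul_smul, Matrix.smul_mul, smul_add]

omit [DecidableEq ι] in
theorem bd_apply (h : Matrix ι ι S6) : bd d d' h = d' * h + h * d := rfl

omit [DecidableEq ι] in
theorem bd_neg (h : Matrix ι ι S6) : bd (-d) d' h = d' * h - h * d := by
  rw [bd_apply, Matrix.mul_neg, sub_eq_add_neg]

omit [DecidableEq ι] in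
theorem BB_bd : BB p d p d' j = (MM p p (j - 3)).map (bd d d') := by
  ext x
  rw [mem_BB, Submodule.mem_map]
  exact exists_congr fun h => and_congr_right fun _ => eq_comm

omit [DecidableEq ι] in
theorem ZZ_bd : ZZ p d p d' j = MM p p j ⊓ LinearMap.ker (bd (-d) d') := by
  ext x
  rw [mem_ZZ, Submodule.mem_inf, LinearMap.mem_ker, bd_neg, sub_eq_zero]

theorem rk_conj {U : Type} [AddCommGroup U] [Module ℂ U] {S S' : Submodule ℂ U}
    (u v : U →ₗ[ℂ] U) (hu : ∀ x ∈ S, u x ∈ S') (hv : ∀ x ∈ S', v x ∈ S) (h : ∀ x, v (u x) = x)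
    (h' : ∀ x, u (v x) = x) : finrank ℂ S = finrank ℂ S' :=
  (LinearEquiv.ofLinearMap (u.restrict hu) (v.restrict hv)
    (LinearMap.ext fun x => Subtype.ext (h' x)) (LinearMap.ext fun x => Subtype.ext (h x))).finrank_eq

variable (W p) in
/-- two members of one class -/
def Pair (d d' : Matrix ι ι S6) : Prop := ∃ O, Orb W p O ∧ d ∈ O ∧ d' ∈ O

theorem Pair.mf (h : Pair W p d d') : IsMF W p d := h.elim fun _ h => h.1.mf _ h.2.1

theorem Pair.mf' (h : Pair W p d d') : IsMF W p d' := h.elim fun _ h => h.1.mf _ h.2.2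

theorem Pair.iso (h : Pair W p d d') :
    ∃ g ∈ ZZ p d p d' 0, ∃ g' ∈ ZZ p d' p d 0, g * g' = 1 ∧ g' * g = 1 := by
  obtain ⟨O, hO, h1, h2⟩ := h
  obtain ⟨g, hg, g', hg', k1, k2, k3⟩ := (hO.conj d h1 d').1 h2
  refine ⟨g, mem_ZZ.2 ⟨hg, k3.symm⟩, g', mem_ZZ.2 ⟨hg', ?_⟩, k1, k2⟩
  rw [← Matrix.one_mul (d * g'), ← k2, Matrix.mul_assoc, ← Matrix.mul_assoc g, k3,
    Matrix.mul_assoc, k1, Matrix.mul_one]

theorem Pair.rkZ (h : Pair W p d d') :
    finrank ℂ (ZZ p d p d' j) = finrank ℂ (ZZ p d p d j) := by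
  obtain ⟨g, hg, g', hg', k1, k2⟩ := h.iso
  exact rk_conj (LL ι g') (LL ι g) (fun _ => ZZ_mul hg') (fun _ => ZZ_mul hg)
    (fun x => by rw [LL_apply, LL_apply, ← Matrix.mul_assoc, k1, Matrix.one_mul])
    fun x => by rw [LL_apply, LL_apply, ← Matrix.mul_assoc, k2, Matrix.one_mul]

theorem Pair.rkB (h : Pair W p d d') :
    finrank ℂ (BB p d p d' j) = finrank ℂ (BB p d p d j) := by
  obtain ⟨g, hg, g', hg', k1, k2⟩ := h.iso
  exact rk_conj (LL ι g') (LL ι g) (fun _ => ZB_mul hg') (fun _ => ZB_mul hg)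
    (fun x => by rw [LL_apply, LL_apply, ← Matrix.mul_assoc, k1, Matrix.one_mul])
    fun x => by rw [LL_apply, LL_apply, ← Matrix.mul_assoc, k2, Matrix.one_mul]

theorem Pair.dim (h : Pair W p d d') (k : ℤ) : finrank ℂ (ZZ p d p d' (3 * k)) =
    (if k = 0 ∨ k = 2 then 1 else if k = 1 then 2 else 0) + finrank ℂ (BB p d p d' (3 * k)) := by
  have := zz_fin (q := p) (e := d) (p := p) (d := d) (j := 3 * k)
  rw [h.rkZ, h.rkB, ← finrank_hq (BB_le h.mf h.mf)]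
  obtain ⟨O, hO, h1, -⟩ := h
  rw [hO.dim d h1]

omit [DecidableEq ι] in
theorem lo_ex (p : ι → ℤ) (k : ℤ) : ∃ (a : ℤ) (n : ℕ), Lo p p a ∧ k = a + n := by
  obtain ⟨b, hb⟩ := (Set.finite_range fun x : ι × ι => p x.1 - p x.2).bddAbove
  refine ⟨min k (-|b|), (k - min k (-|b|)).toNat, fun l i => ?_, by omega⟩
  have h1 : p l - p i ≤ b := hb ⟨(l, i), rfl⟩
  have h2 := le_abs_self b
  have h3 := abs_nonneg b
  omega

variable (W p) in
theorem rkB_const (k : ℤ) :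
    ∃ r, ∀ d d', Pair W p d d' → finrank ℂ (BB p d p d' (3 * k)) = r := by
  by_cases h : ∃ d d', Pair W p d d'
  · obtain ⟨c, c', hc⟩ := h
    refine ⟨finrank ℂ (BB p c p c' (3 * k)), fun d d' hd => ?_⟩
    obtain ⟨a, n, hL, rfl⟩ := lo_ex p k
    have h1 := rank_eq (n := n) hd.mf hd.mf hL
    have h2 := rank_eq (n := n) hc.mf hc.mf hL
    have h3 : Chi p p d a n d = Chi p p c a n c := by
      obtain ⟨O, hO, k1, -⟩ := hd
      obtain ⟨O', hO', k2, -⟩ := hc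
      exact Finset.sum_congr rfl fun k _ => by rw [hO.dim d k1, hO'.dim c k2]
    rw [hd.rkB, hc.rkB]
    exact Nat.cast_injective (R := ℤ) (mul_left_cancel₀ (pow_ne_zero n (by norm_num))
      (add_left_cancel (h1.trans (h3.trans h2.symm))))
  · exact ⟨0, fun d d' hd => (h ⟨d, d', hd⟩).elim⟩

variable (W p) in
theorem rkZ_const (k : ℤ) :
    ∃ r, ∀ d d', Pair W p d d' → finrank ℂ ((MM p p (3 * k)).map (bd (-d) d')) = r := by
  obtain ⟨r, hr⟩ := rkB_const W p k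
  refine ⟨finrank ℂ (MM p p (3 * k)) -
    ((if k = 0 ∨ k = 2 then 1 else if k = 1 then 2 else 0) + r), fun d d' h => ?_⟩
  have := mm_fin p p (3 * k)
  rw [finrank_map (T := MM p p (3 * k)) (bd (-d) d'), ← ZZ_bd, h.dim, hr d d' h,
    Nat.add_sub_cancel_left]

theorem Pair.neg (h : Pair W p d d') (hk : k < 0) : BB p d p d' (3 * k) = ZZ p d p d' (3 * k) := by
  have := zz_fin (q := p) (e := d) (p := p) (d := d') (j := 3 * k)
  refine Submodule.eq_of_le_of_finrank_eq (BB_le h.mf h.mf') ?_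
  rw [h.dim, if_neg (by omega), if_neg (by omega), zero_add]

theorem Pair.simp (h : Pair W p d d') : Simp p d := by
  have := zz_fin (q := p) (e := d) (p := p) (d := d) (j := 0)
  have h1 := h.dim 0
  rw [h.rkZ, h.rkB, if_pos (Or.inl rfl), mul_zero] at h1
  have h2 := BB_le (j := 0) h.mf h.mf
  have h3 : (1 : Matrix ι ι S6) ∉ BB p d p d 0 := fun k => by
    have : BB p d p d 0 = ZZ p d p d 0 :=
      le_antisymm h2 fun u hu => Matrix.one_mul u ▸ BZ_mul k hu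
    rw [this] at h1
    omega
  have h4 : BB p d p d 0 ⊔ Submodule.span ℂ {1} ≤ ZZ p d p d 0 :=
    sup_le h2 ((Submodule.span_singleton_le_iff_mem _ _).2 one_zz)
  have := Submodule.finiteDimensional_of_le h4
  have h5 : BB p d p d 0 < BB p d p d 0 ⊔ Submodule.span ℂ {1} :=
    Submodule.lt_sup_iff_notMem.2 h3
  have h6 := Submodule.finrank_lt_finrank_of_lt h5
  intro u hu
  rw [← Submodule.eq_of_le_of_finrank_le h4 (by omega)] at hu
  obtain ⟨b, hb, z, hz, rfl⟩ := Submodule.mem_sup.1 hu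
  obtain ⟨c, rfl⟩ := Submodule.mem_span_singleton.1 hz
  exact ⟨c, by rwa [add_sub_cancel_right]⟩

section

variable {T : Type} {A : Subalgebra ℂ (T → ℂ)} {d d' : T → Matrix ι ι S6}

omit [DecidableEq ι] in
theorem ginv_bd (hA : PU A) (fd : Fam A d) (fd' : Fam A d') (hd : ∀ t, d t ∈ MM p p 3)
    (hd' : ∀ t, d' t ∈ MM p p 3) {r : ℕ}
    (hr : ∀ t, finrank ℂ ((MM p p j).map (bd (d t) (d' t))) = r) :
    ∃ G : T → Matrix ι ι S6 →ₗ[ℂ] Matrix ι ι S6, (∀ y, (fun t => G t y) ∈ RG A (MM p p j)) ∧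
      ∀ t, ∀ u ∈ MM p p j, bd (d t) (d' t) (G t (bd (d t) (d' t) u)) = bd (d t) (d' t) u := by
  have := mm_fin p p j
  exact ginv hA (fun u hu l => ((fd'.mul (.const u)).add ((Fam.const u).mul fd)).lin
    (fun t => add_mem (mm_mul (hd' t) hu rfl) (mm_mul hu (hd t) (add_comm _ _))) l) hr

omit [Fintype ι] [DecidableEq ι] in
theorem Fam.neg (h : Fam A d) : Fam A fun t => -d t := by
  simpa using (Fam.const 0).sub h

theorem ginvB (hA : PU A) (fd : Fam A d) (fd' : Fam A d') (h : ∀ t, Pair W p (d t) (d' t))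
    (k : ℤ) : ∃ G : T → Matrix ι ι S6 →ₗ[ℂ] Matrix ι ι S6,
      (∀ y, (fun t => G t y) ∈ RG A (MM p p (3 * k - 3))) ∧
      ∀ t, ∀ x ∈ BB p (d t) p (d' t) (3 * k), x = d' t * G t x + G t x * d t := by
  obtain ⟨r, hr⟩ := rkB_const W p k
  obtain ⟨G, h1, h2⟩ := ginv_bd (j := 3 * k - 3) hA fd fd' (fun t => (h t).mf.deg)
    (fun t => (h t).mf'.deg) fun t => by rw [← BB_bd, hr _ _ (h t)]
  refine ⟨G, h1, fun t x hx => ?_⟩
  obtain ⟨u, hu, rfl⟩ := mem_BB.1 hx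
  exact (h2 t u hu).symm

theorem ginvZ (hA : PU A) (fd : Fam A d) (fd' : Fam A d') (h : ∀ t, Pair W p (d t) (d' t))
    (k : ℤ) : ∃ G : T → Matrix ι ι S6 →ₗ[ℂ] Matrix ι ι S6,
      (∀ y, (fun t => G t y) ∈ RG A (MM p p (3 * k))) ∧
      ∀ t, ∀ u ∈ MM p p (3 * k), u - G t (d' t * u - u * d t) ∈ ZZ p (d t) p (d' t) (3 * k) := by
  obtain ⟨r, hr⟩ := rkZ_const W p k
  obtain ⟨G, h1, h2⟩ := ginv_bd (j := 3 * k) hA fd.neg fd' (fun t => neg_mem (h t).mf.deg)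
    (fun t => (h t).mf'.deg) fun t => hr _ _ (h t)
  refine ⟨G, h1, fun t u hu => ?_⟩
  rw [ZZ_bd]
  refine ⟨sub_mem hu (rg_mem (h1 _) t), ?_⟩
  rw [SetLike.mem_coe, LinearMap.mem_ker, map_sub, ← bd_neg, h2 t u hu, sub_self]

/-- locally constant functions -/
def LC (A : Subalgebra ℂ (T → ℂ)) {α : Type} (F : T → α) : Prop :=
  ∀ t₀, ∃ w ∈ A, w t₀ ≠ 0 ∧ ∀ t, w t ≠ 0 → F t = F t₀

variable {κ : Type} [Fintype κ] [DecidableEq κ] {q : κ → ℤ} {e : Matrix κ κ S6} {a : ℤ} {n r : ℕ}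
  {F F' : T → Fr ι κ r}

theorem glob_loc (hA : PU A) (hW : V.Hg 6 W) (hE : IsMF W q e) (hL : Lo p q a) {s : ℤ}
    (hs : s = 1 ∨ s = -1) (fd : Fam A d) (fd' : Fam A d') (h : ∀ t, Pair W p (d t) (d' t))
    (hc : ∀ t, Chi p q e a n (d t) = s) (hF : ∀ t, Adm p q e a n (d t) (F t))
    (hF' : ∀ t, Adm p q e a n (d' t) (F' t)) (l : LC A F) (l' : LC A F') (t₀ : T) :
    ∃ w ∈ A, w t₀ ≠ 0 ∧ ∃ ψ : T → Matrix ι ι S6, Fam A ψ ∧ ∀ t, (w t = 0 → ψ t = 0) ∧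
      (w t ≠ 0 → ∃ x, Nrm p q e a n (d t) (F t) (d' t) (F' t) x ∧ ψ t = w t • x) := by
  obtain ⟨G, h1, h2⟩ := ginvZ hA fd fd' h 0
  rw [mul_zero] at h1 h2
  obtain ⟨u, hu, u', hu', k1, k2⟩ := (h t₀).iso
  have hm := (mem_ZZ.1 hu).1
  have fφ : Fam A fun t => u - G t (d' t * u - u * d t) :=
    (Fam.const u).sub (fam_of_rg (rg_app (V := MM p p 3) (fun y _ => h1 y)
      (rg_of_fam ((fd'.mul (.const u)).sub ((Fam.const u).mul fd)) fun t =>
        sub_mem (mm_mul (h t).mf'.deg hm (add_zero _)) (mm_mul hm (h t).mf.deg (zero_add _)))))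
  obtain ⟨f, hf, g, hg, f0, g0, h3⟩ := nrm_reg hW hE hL hs fd fd' fφ (fun t => (h t).mf.deg)
    (fun t => (h t).mf'.deg) (fun t => (mem_ZZ.1 (h2 t u hm)).1) (h t₀).mf (h t₀).mf' (hF t₀)
    (hF' t₀) (by
      rw [(mem_ZZ.1 hu).2, sub_self, map_zero, sub_zero]
      exact ⟨hu, u', hu', by rw [k2, sub_self]; exact zero_mem _,
        by rw [k1, sub_self]; exact zero_mem _⟩)
  obtain ⟨w, hw, w0, h4⟩ := l t₀
  obtain ⟨w', hw', w0', h5⟩ := l' t₀
  refine ⟨fun t => f t * g t * w t * w' t * g t,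
    mul_mem (mul_mem (mul_mem (mul_mem hf hg) hw) hw') hg, by simp [f0, g0, w0, w0'],
    fun t => (f t * g t * w t * w' t * f t) • (u - G t (d' t * u - u * d t)),
    Fam.smul (mul_mem (mul_mem (mul_mem (mul_mem hf hg) hw) hw') hf) fφ, fun t =>
    ⟨fun h0 => ?_, fun h0 => ?_⟩⟩
  · have : f t * g t * w t * w' t = 0 := by
      rcases mul_eq_zero.1 h0 with h0 | h0
      · exact h0
      · simp [h0]
    simp only [this, zero_mul, zero_smul]
  · simp only [ne_eq, mul_eq_zero, not_or] at h0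
    obtain ⟨⟨⟨⟨a1, a2⟩, a3⟩, a4⟩, -⟩ := h0
    refine ⟨_, h4 t a3 ▸ h5 t a4 ▸ h3 t a1 a2 (h t).mf (h t).mf' (h2 t u hm)
      (h4 t a3 ▸ hF t) (hc t), ?_⟩
    rw [smul_smul, mul_assoc _ (g t), mul_div_cancel₀ _ a2]

/-- a global normalised isomorphism -/
theorem glob (hA : PU A) (hW : V.Hg 6 W) (hE : IsMF W q e) (hL : Lo p q a) {s : ℤ}
    (hs : s = 1 ∨ s = -1) (fd : Fam A d) (fd' : Fam A d') (h : ∀ t, Pair W p (d t) (d' t))
    (hc : ∀ t, Chi p q e a n (d t) = s) (hF : ∀ t, Adm p q e a n (d t) (F t))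
    (hF' : ∀ t, Adm p q e a n (d' t) (F' t)) (l : LC A F) (l' : LC A F') :
    ∃ g : T → Matrix ι ι S6, Fam A g ∧ ∀ t, Nrm p q e a n (d t) (F t) (d' t) (F' t) (g t) := by
  choose w h1 h2 ψ h3 h4 using glob_loc hA hW hE hL hs fd fd' h hc hF hF' l l'
  obtain ⟨S, c, h5, h6⟩ := hA w h1 h2
  refine ⟨fun t => ∑ i ∈ S, c i t • ψ i t, fun i l m => ?_, fun t => ?_⟩
  · simp only [Matrix.sum_apply, coeff_sum]
    exact fun_sum_mem _ fun j _ => Fam.smul (h5 j) (h3 j) i l m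
  obtain ⟨x, hx, -⟩ := (h4 t t).2 (h2 t)
  refine hx.congr ?_
  rw [← one_smul ℂ x, ← h6 t, Finset.sum_smul, ← Finset.sum_sub_distrib]
  refine sum_mem fun i _ => ?_
  rw [mul_smul, ← smul_sub]
  refine Submodule.smul_mem _ _ ?_
  by_cases h0 : w i t = 0
  · rw [(h4 i t).1 h0, h0, zero_smul, sub_zero]
    exact zero_mem _
  · obtain ⟨y, hy, h7⟩ := (h4 i t).2 h0
    rw [h7, ← smul_sub]
    exact Submodule.smul_mem _ _
      (Nrm.uniq hE (h t).mf hL (h t).simp (hc t ▸ hs) (hF t) hy hx)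

end

end Vale.Agent.P287T.Dt
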