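import Vale.Agent.P287T.Dt.Defs
import Mathlib.LinearAlgebra.Determinant

/-!
# Determinants on invariant subspaces
-/

open Module

noncomputable section

namespace Vale.Agent.P287T.Dt

variable {U : Type} [AddCommGroup U] [Module ℂ U] {u v : U →ₗ[ℂ] U} {S T : Submodule ℂ U}

theorem dt_eq (h : ∀ x ∈ S, u x ∈ S) : dt u S = LinearMap.det (u.restrict h) := by
  rw [dt, dif_pos h]

theorem dt_mul (hu : ∀ x ∈ S, u x ∈ S) (hv : ∀ x ∈ S, v x ∈ S) :
    dt (u ∘ₗ v) S = dt u S * dt v S := by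
  rw [dt_eq hu, dt_eq hv, dt_eq (u := u ∘ₗ v) fun x hx => hu _ (hv x hx), ← LinearMap.det_comp]
  rfl

theorem dt_congr (h : ∀ x ∈ S, u x = v x) : dt u S = dt v S := by
  by_cases hu : ∀ x ∈ S, u x ∈ S
  · have hv : ∀ x ∈ S, v x ∈ S := fun x hx => h x hx ▸ hu x hx
    rw [dt_eq hu, dt_eq hv]
    congr 1
    exact LinearMap.ext fun x => Subtype.ext (h x.1 x.2)
  · have hv : ¬ ∀ x ∈ S, v x ∈ S := fun hv => hu fun x hx => (h x hx).symm ▸ hv x hx
    rw [dt, dt, dif_neg hu, dif_neg hv]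

theorem dt_id (S : Submodule ℂ U) : dt LinearMap.id S = 1 := by
  rw [dt_eq (u := LinearMap.id) fun x hx => hx]
  exact LinearMap.det_id

theorem dt_smul [Module.Finite ℂ S] (c : ℂ) (hu : ∀ x ∈ S, u x ∈ S) :
    dt (c • u) S = c ^ finrank ℂ S * dt u S := by
  rw [dt_eq hu, dt_eq (u := c • u) fun x hx => S.smul_mem c (hu x hx), ← LinearMap.det_smul]
  rfl

/-- conjugation -/
theorem dt_conj {Q : Type} [AddCommGroup Q] [Module ℂ Q] (hu : ∀ x ∈ S, u x ∈ S) (φ : Q ≃ₗ[ℂ] S)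
    (w : Q →ₗ[ℂ] Q) (h : ∀ x, u (φ x) = φ (w x)) : dt u S = LinearMap.det w := by
  rw [dt_eq hu, ← LinearMap.det_conj w φ]
  congr 1
  refine LinearMap.ext fun x => Subtype.ext ?_
  obtain ⟨y, rfl⟩ := φ.surjective x
  simp [h]

/-- multiplicativity in short exact sequences -/
theorem dt_ses {Q : Type} [AddCommGroup Q] [Module ℂ Q] [Module.Finite ℂ T] (hST : S ≤ T)
    (hS : ∀ x ∈ S, u x ∈ S) (hT : ∀ x ∈ T, u x ∈ T) (π : T →ₗ[ℂ] Q)
    (hπ : Function.Surjective π) (hk : ∀ x : T, π x = 0 ↔ (x : U) ∈ S) (w : Q →ₗ[ℂ] Q)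
    (hw : ∀ x : T, π ⟨u x, hT _ x.2⟩ = w (π x)) : dt u T = dt u S * LinearMap.det w := by
  have he : S.submoduleOf T ≤ (S.submoduleOf T).comap (u.restrict hT) := fun x hx => hS _ hx
  have hker : S.submoduleOf T = LinearMap.ker π := by
    ext z
    rw [LinearMap.mem_ker, hk]
    rfl
  rw [dt_eq hT, LinearMap.det_eq_det_mul_det (S.submoduleOf T) _ he]
  congr 1
  · exact (dt_conj hS (Submodule.submoduleOfEquivOfLe hST) _ fun x => rfl).symm
  · let φ := (Submodule.quotEquivOfEq _ _ hker).trans (π.quotKerEquivOfSurjective hπ)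
    rw [← LinearMap.det_conj _ φ]
    congr 1
    refine LinearMap.ext fun y => ?_
    obtain ⟨x, rfl⟩ := hπ y
    have h1 : φ.symm (π x) = Submodule.Quotient.mk x := by
      rw [LinearEquiv.symm_apply_eq]
      rfl
    change φ (Submodule.mapQ _ _ _ he (φ.symm (π x))) = _
    rw [h1, ← hw]
    rfl

/-- `u` acts on `T / S` as a scalar -/
theorem dt_scalar [Module.Finite ℂ T] (hST : S ≤ T) (hS : ∀ x ∈ S, u x ∈ S)
    (hT : ∀ x ∈ T, u x ∈ T) (c : ℂ) (h : ∀ x ∈ T, u x - c • x ∈ S) :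
    dt u T = dt u S * c ^ finrank ℂ (T ⧸ S.submoduleOf T) := by
  rw [dt_ses hST hS hT (S.submoduleOf T).mkQ (Submodule.mkQ_surjective _)
    (fun x => Submodule.Quotient.mk_eq_zero _) (c • LinearMap.id) fun x => ?_]
  · rw [LinearMap.det_smul, LinearMap.det_id, mul_one]
  · rw [LinearMap.smul_apply, LinearMap.id_apply, ← map_smul, Submodule.mkQ_apply,
      Submodule.mkQ_apply, Submodule.Quotient.eq]
    exact h x x.2

/-- kernel and image of a map that commutes with `u` -/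
theorem dt_map [Module.Finite ℂ T] (D : U →ₗ[ℂ] U) (hT : ∀ x ∈ T, u x ∈ T)
    (hD : ∀ x, D (u x) = u (D x)) :
    dt u T = dt u (T ⊓ LinearMap.ker D) * dt u (T.map D) := by
  have h1 : ∀ x ∈ T.map D, u x ∈ T.map D := by
    rintro _ ⟨x, hx, rfl⟩
    exact ⟨u x, hT x hx, hD x⟩
  rw [dt_eq h1]
  refine dt_ses inf_le_left (fun x hx => ⟨hT x hx.1, ?_⟩) hT
    (D.restrict fun x hx => Submodule.mem_map_of_mem hx) ?_ (fun x => ?_) _ fun x => ?_
  · have := hx.2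
    rw [SetLike.mem_coe, LinearMap.mem_ker] at this ⊢
    rw [hD, this, map_zero]
  · rintro ⟨_, x, hx, rfl⟩
    exact ⟨⟨x, hx⟩, rfl⟩
  · rw [Subtype.ext_iff]
    exact ⟨fun h => ⟨x.2, h⟩, fun h => h.2⟩
  · exact Subtype.ext (hD x)

theorem finrank_map [Module.Finite ℂ T] (D : U →ₗ[ℂ] U) :
    finrank ℂ T = finrank ℂ (T ⊓ LinearMap.ker D : Submodule ℂ U) + finrank ℂ (T.map D) := by
  have h := LinearMap.finrank_range_add_finrank_ker (D.domRestrict T)
  rw [LinearMap.range_domRestrict, LinearMap.ker_domRestrict] at h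
  rw [← h, add_comm]
  congr 1
  rw [← Submodule.finrank_map_subtype_eq, Submodule.map_comap_subtype]

theorem dt_ne [Module.Finite ℂ S] (hu : ∀ x ∈ S, u x ∈ S) (hv : ∀ x ∈ S, v x ∈ S)
    (h : ∀ x ∈ S, v (u x) = x) : dt u S ≠ 0 := by
  have h1 : dt (v ∘ₗ u) S = 1 := (dt_congr (v := LinearMap.id) h).trans (dt_id S)
  rw [dt_mul hv hu] at h1
  exact right_ne_zero_of_mul_eq_one h1

/-- telescoping product -/
theorem tele (x z b : ℕ → ℂ) (c : ℂ) (h : ℕ → ℕ) (hb : ∀ k, b k ≠ 0) (hc : c ≠ 0)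
    (h0 : b 0 = 1) (h1 : ∀ k, x k = z k * b (k + 1)) (h2 : ∀ k, z k = b k * c ^ h k) (n : ℕ) :
    (∏ k ∈ Finset.range n, x k ^ ((-1 : ℤ) ^ k)) * b n ^ ((-1 : ℤ) ^ n) =
      c ^ ∑ k ∈ Finset.range n, (-1 : ℤ) ^ k * h k := by
  induction n with
  | zero => simp [h0]
  | succ n ih =>
    rw [Finset.prod_range_succ, Finset.sum_range_succ, zpow_add₀ hc, ← ih, h1, h2, mul_zpow,
      mul_zpow, pow_succ, mul_neg_one, zpow_neg, ← zpow_natCast, ← zpow_mul, mul_comm (h n : ℤ)]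
    have := zpow_ne_zero ((-1 : ℤ) ^ n) (hb (n + 1))
    field_simp

theorem tele_rk (x z b h : ℕ → ℕ) (h0 : b 0 = 0) (h1 : ∀ k, x k = z k + b (k + 1))
    (h2 : ∀ k, h k + b k = z k) (n : ℕ) :
    (∑ k ∈ Finset.range n, (-1 : ℤ) ^ k * x k) + (-1 : ℤ) ^ n * b n =
      ∑ k ∈ Finset.range n, (-1 : ℤ) ^ k * h k := by
  induction n with
  | zero => simp [h0]
  | succ n ih =>
    rw [Finset.sum_range_succ, Finset.sum_range_succ, ← ih, h1, ← h2, pow_succ]
    push_cast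
    ring

end Vale.Agent.P287T.Dt
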