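import Vale.Agent.P287T.Dt.Del
import Vale.Agent.P287T.Dt.Iso

/-!
# Normalised equivalences
-/

open MvPolynomial Module

noncomputable section

namespace Vale.Agent.P287T.Dt

open Vale.Agent.P287T.Cy Vale.Agent.P287Z.O Vale.Agent.P287Z.O.L Vale.Agent.P287Z.T

variable {ι κ : Type} [Fintype ι] [Fintype κ] [DecidableEq ι] [DecidableEq κ]
  {W : S6} {p : ι → ℤ} {q : κ → ℤ} {e : Matrix κ κ S6} {d d' d'' φ ψ : Matrix ι ι S6}
  {a : ℤ} {n r : ℕ} {F F' F'' : Fr ι κ r}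

theorem nrm_one (h : Adm p q e a n d F) : Nrm p q e a n d F d F 1 :=
  ⟨1, one_zz, isUnit_one, by rw [sub_self]; exact zero_mem _, del_one h⟩

theorem Nrm.zz (hd : IsMF W p d) (hd' : IsMF W p d') (h : Nrm p q e a n d F d' F' φ) :
    φ ∈ ZZ p d p d' 0 := by
  obtain ⟨f, h1, -, h2, -⟩ := h
  simpa using add_mem (BB_le hd hd' h2) h1

theorem Nrm.congr (h : Nrm p q e a n d F d' F' φ) (hb : ψ - φ ∈ BB p d p d' 0) :
    Nrm p q e a n d F d' F' ψ := by
  obtain ⟨f, h1, h2, h3, h4⟩ := h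
  exact ⟨f, h1, h2, by simpa using add_mem hb h3, h4⟩

theorem Nrm.eqv (hd : IsMF W p d) (hd' : IsMF W p d') (h : Nrm p q e a n d F d' F' φ) :
    Eqv p d d' φ := by
  refine ⟨h.zz hd hd', ?_⟩
  obtain ⟨f, h1, h2, h3, -⟩ := h
  obtain ⟨g, hg, a1, a2⟩ := inv_zz h1 h2
  exact ⟨g, hg, by simpa [Matrix.mul_sub, a1] using ZB_mul hg h3,
    by simpa [Matrix.sub_mul, a2] using BZ_mul h3 hg⟩

theorem Nrm.comp (hE : IsMF W q e) (hd : IsMF W p d) (hd' : IsMF W p d')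
    (h : Adm p q e a n d F) (h' : Adm p q e a n d' F') (h1 : Nrm p q e a n d F d' F' φ)
    (h2 : Nrm p q e a n d' F' d'' F'' ψ) : Nrm p q e a n d F d'' F'' (ψ * φ) := by
  have hφ := h1.zz hd hd'
  obtain ⟨f, a1, a2, a3, a4⟩ := h1
  obtain ⟨g, b1, b2, b3, b4⟩ := h2
  refine ⟨g * f, ZZ_mul b1 a1, b2.mul a2, ?_, by rw [del_mul hE hd' h h' a1 b1.1, a4, b4, mul_one]⟩
  simpa [Matrix.mul_sub, Matrix.sub_mul] using add_mem (BZ_mul b3 hφ) (ZB_mul b1 a3)

omit [DecidableEq κ] in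
theorem chi_zero (h : (1 : Matrix ι ι S6) ∈ BB p d p d 0) : Chi p q e a n d = 0 := by
  refine Finset.sum_eq_zero fun k _ => ?_
  have : Subsingleton (HH q e p d (3 * (a + k))) :=
    hq_subsingleton fun x hx => by simpa using BZ_mul h hx
  rw [Module.finrank_zero_of_subsingleton, Nat.cast_zero, mul_zero]

theorem Nrm.uniq (hE : IsMF W q e) (hd : IsMF W p d) (hL : Lo p q a)
    (hs : Simp p d) (hc : Chi p q e a n d = 1 ∨ Chi p q e a n d = -1) (h : Adm p q e a n d F)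
    (h1 : Nrm p q e a n d F d' F' φ)
    (h2 : Nrm p q e a n d F d' F' ψ) : φ - ψ ∈ BB p d p d' 0 := by
  obtain ⟨f, a1, a2, a3, a4⟩ := h1
  obtain ⟨g, b1, b2, b3, b4⟩ := h2
  obtain ⟨g', c1, c2, c3⟩ := inv_zz b1 b2
  have u1 := ZZ_mul c1 a1
  have u2 : IsUnit (g' * f) := (IsUnit.of_mul_eq_one g c2).mul a2
  have u3 : g * (g' * f) = f := by rw [← Matrix.mul_assoc, c3, Matrix.one_mul]
  obtain ⟨c, u4⟩ := hs _ u1
  have c0 : c ≠ 0 := by
    rintro rfl
    obtain ⟨u, d1, d2, -⟩ := inv_zz u1 u2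
    have := chi_zero (q := q) (e := e) (a := a) (n := n)
      (by simpa only [zero_smul, sub_zero, d2] using ZB_mul d1 u4)
    omega
  have u5 := del_mul (d'' := d') (F'' := F') hE hd h h u1 b1.1
  rw [u3, a4, b4, one_mul, del_aut hE hd hL h u1 u2 c0 u4] at u5
  have u6 : c = 1 := by
    rcases hc with hc | hc <;> rw [hc] at u5
    · simpa using u5.symm
    · simpa using u5.symm
  have u7 := ZB_mul b1 u4
  rw [u6, one_smul, Matrix.mul_sub, u3, Matrix.mul_one] at u7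
  simpa using sub_mem (add_mem a3 u7) b3

theorem nrm_of_unit (hE : IsMF W q e) (hd : IsMF W p d) (hL : Lo p q a) {s : ℤ}
    (hs : s = 1 ∨ s = -1) (hc : Chi p q e a n d = s) (h : Adm p q e a n d F) {f : Matrix ι ι S6}
    (hf : f ∈ ZZ p d p d' 0) (hu : IsUnit f) (hb : φ - f ∈ BB p d p d' 0)
    (h0 : del p q e a n d F d' F' f ≠ 0) :
    Nrm p q e a n d F d' F' (del p q e a n d F d' F' f ^ (-s) • φ) := by
  have h1 := zpow_ne_zero (-s) h0
  refine ⟨_, Submodule.smul_mem _ _ hf, unit_smul h1 hu, ?_, ?_⟩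
  · rw [← smul_sub]
    exact Submodule.smul_mem _ _ hb
  · rw [del_smul hE hd hL h hf.1 h1, hc, ← zpow_mul,
      show -s * s = -1 by rcases hs with rfl | rfl <;> rfl, zpow_neg_one, inv_mul_cancel₀ h0]

omit [Fintype κ] [DecidableEq κ] [DecidableEq ι] in
theorem htpy_mem {k : Matrix ι ι S6} (hk : k ∈ MM p p (-3)) : d' * k + k * d ∈ BB p d p d' 0 :=
  ⟨k, hk, rfl⟩

theorem nrm_ex (hW : V.Hg 6 W) (hE : IsMF W q e) (hd : IsMF W p d) (hd' : IsMF W p d')
    (hL : Lo p q a) (hc : Chi p q e a n d = 1 ∨ Chi p q e a n d = -1) (h : Adm p q e a n d F)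
    (h' : Adm p q e a n d' F') (hφ : Eqv p d d' φ) :
    ∃ c : ℂ, c ≠ 0 ∧ Nrm p q e a n d F d' F' (c • φ) := by
  obtain ⟨k, hk, hu⟩ := strict hW hd hd' hφ
  have h1 := add_mem hφ.1 (BB_le hd hd' (htpy_mem hk))
  have h0 := del_ne hE hd' h h' h1 hu
  exact ⟨_, zpow_ne_zero _ h0, nrm_of_unit hE hd hL hc rfl h h1 hu
    (by simpa using neg_mem (htpy_mem (d := d) (d' := d') hk)) h0⟩

/-- the rank of a frame depends on the Euler characteristic only -/
theorem rk_eq (hE : IsMF W q e) (hd : IsMF W p d) (hd' : IsMF W p d') (hL : Lo p q a)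
    (hc : Chi p q e a n d = Chi p q e a n d') :
    finrank ℂ (BB q e p d (3 * (a + n))) = finrank ℂ (BB q e p d' (3 * (a + n))) := by
  rw [← rank_eq hE hd hL, ← rank_eq hE hd' hL, add_right_inj,
    mul_right_inj' (pow_ne_zero _ (by norm_num))] at hc
  exact_mod_cast hc

theorem adm_ex (hE : IsMF W q e) (hd : IsMF W p d)
    (hr : finrank ℂ (BB q e p d (3 * (a + n))) = r) : ∃ F : Fr ι κ r, Adm p q e a n d F := by
  have := bb_fin hE hd (3 * (a + n))
  let b := Module.finBasisOfFinrankEq ℂ _ hr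
  have h1 : ∀ j, ∃ x ∈ MM q p (3 * (a + n) - 3), DD q e d x = b j := fun j => by
    have h2 := (b j).2
    exact Submodule.mem_map.1 ((BB_eq hE.deg).le h2)
  choose al h2 h3 using h1
  choose be h4 using fun i => (b.coord i).exists_extend
  refine ⟨⟨al, be⟩, h2, ?_, hr⟩
  have h5 : (Matrix.of fun i j => be i ((1 : Matrix ι ι S6) * DD q e d (al j))) = 1 := by
    ext i j
    rw [Matrix.of_apply, Matrix.one_mul, h3]
    refine (LinearMap.congr_fun (h4 i) (b j)).trans ?_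
    simp [Matrix.one_apply, Finsupp.single_apply, eq_comm]
  rw [frd, h5, Matrix.det_one]
  exact one_ne_zero

end Vale.Agent.P287T.Dt
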