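import Vale.Agent.P287T.Dt.Main

/-!
# Normalised equivalences in families
-/

open MvPolynomial Module

noncomputable section

namespace Vale.Agent.P287T.Dt

open Vale.Agent.P287T.Cy Vale.Agent.P287Z.O Vale.Agent.P287Z.O.L Vale.Agent.P287Z.T

variable {T : Type} {A : Subalgebra ℂ (T → ℂ)}

section
variable {ι κ μ : Type}

theorem fun_sum_mem {α : Type} (s : Finset α) {x : α → T → ℂ} (h : ∀ i ∈ s, x i ∈ A) :
    (fun t => ∑ i ∈ s, x i t) ∈ A := by
  rw [← Finset.sum_fn]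
  exact sum_mem h

theorem fun_prod_mem {α : Type} (s : Finset α) {x : α → T → ℂ} (h : ∀ i ∈ s, x i ∈ A) :
    (fun t => ∏ i ∈ s, x i t) ∈ A := by
  rw [← Finset.prod_fn]
  exact prod_mem h

theorem fun_const_mem (c : ℂ) : (fun _ : T => c) ∈ A := A.algebraMap_mem c

theorem Fam.const (M : Matrix ι κ S6) : Fam A fun _ => M := fun _ _ _ => fun_const_mem _

theorem Fam.add {M N : T → Matrix ι κ S6} (h : Fam A M) (h' : Fam A N) :
    Fam A fun t => M t + N t := fun i l m => by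
  simp only [Matrix.add_apply, coeff_add]
  exact add_mem (h i l m) (h' i l m)

theorem Fam.sub {M N : T → Matrix ι κ S6} (h : Fam A M) (h' : Fam A N) :
    Fam A fun t => M t - N t := fun i l m => by
  simp only [Matrix.sub_apply, coeff_sub]
  exact sub_mem (h i l m) (h' i l m)

theorem Fam.smul {c : T → ℂ} {M : T → Matrix ι κ S6} (hc : c ∈ A) (h : Fam A M) :
    Fam A fun t => c t • M t := fun i l m => by
  simp only [Matrix.smul_apply, coeff_smul, smul_eq_mul]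
  exact mul_mem hc (h i l m)

theorem Fam.mul [Fintype κ] {M : T → Matrix ι κ S6} {N : T → Matrix κ μ S6} (h : Fam A M)
    (h' : Fam A N) : Fam A fun t => M t * N t := fun i l m => by
  classical
  simp only [Matrix.mul_apply, coeff_sum, coeff_mul]
  exact fun_sum_mem _ fun k _ => fun_sum_mem _ fun x _ => mul_mem (h i k x.1) (h' k l x.2)

theorem Fam.lin [Finite ι] [Finite κ] {p : ι → ℤ} {q : κ → ℤ} {j : ℤ} {M : T → Matrix κ ι S6}
    (h : Fam A M) (hM : ∀ t, M t ∈ MM p q j) (l : Matrix κ ι S6 →ₗ[ℂ] ℂ) :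
    (fun t => l (M t)) ∈ A := by
  classical
  have := Fintype.ofFinite ι
  have := Fintype.ofFinite κ
  obtain ⟨S, hS⟩ := mm_expand p q j
  have h1 : (fun t => l (M t)) = fun t => ∑ a, ∑ b, ∑ m ∈ S,
      coeff m (M t a b) * l (Matrix.single a b (monomial m (1 : ℂ))) := funext fun t => by
    conv_lhs => rw [hS _ (hM t)]
    simp only [map_sum, map_smul, smul_eq_mul]
  rw [h1]
  exact fun_sum_mem _ fun a _ => fun_sum_mem _ fun b _ => fun_sum_mem _ fun m _ =>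
    mul_mem (h a b m) (fun_const_mem _)

theorem det_mem [Fintype ι] [DecidableEq ι] {M : T → Matrix ι ι ℂ}
    (h : ∀ i j, (fun t => M t i j) ∈ A) : (fun t => (M t).det) ∈ A := by
  simp only [Matrix.det_apply']
  exact fun_sum_mem _ fun s _ => mul_mem (fun_const_mem _) (fun_prod_mem _ fun i _ => h _ _)

end

/-- `x` is a quotient of two functions of `A` near `t₀`, and does not vanish there -/
def Lq (A : Subalgebra ℂ (T → ℂ)) (t₀ : T) (x : T → ℂ) : Prop :=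
  ∃ f ∈ A, ∃ g ∈ A, f t₀ ≠ 0 ∧ g t₀ ≠ 0 ∧ ∀ t, f t ≠ 0 → g t ≠ 0 → x t = f t / g t

variable {t₀ : T} {x y : T → ℂ}

theorem Lq.of (h : x ∈ A) (h0 : x t₀ ≠ 0) : Lq A t₀ x :=
  ⟨x, h, 1, one_mem _, h0, one_ne_zero, fun _ _ _ => (div_one _).symm⟩

theorem Lq.mul (h : Lq A t₀ x) (h' : Lq A t₀ y) : Lq A t₀ fun t => x t * y t := by
  obtain ⟨f, a1, g, a2, a3, a4, a5⟩ := h
  obtain ⟨f', b1, g', b2, b3, b4, b5⟩ := h'
  refine ⟨f * f', mul_mem a1 b1, g * g', mul_mem a2 b2, mul_ne_zero a3 b3, mul_ne_zero a4 b4,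
    fun t h1 h2 => ?_⟩
  obtain ⟨c1, c2⟩ := mul_ne_zero_iff.1 h1
  obtain ⟨c3, c4⟩ := mul_ne_zero_iff.1 h2
  change x t * y t = _
  rw [a5 t c1 c3, b5 t c2 c4, div_mul_div_comm]
  rfl

theorem Lq.inv (h : Lq A t₀ x) : Lq A t₀ fun t => (x t)⁻¹ := by
  obtain ⟨f, a1, g, a2, a3, a4, a5⟩ := h
  exact ⟨g, a2, f, a1, a4, a3, fun t h1 h2 => (congrArg _ (a5 t h2 h1)).trans (inv_div _ _)⟩

theorem Lq.zpow (h : Lq A t₀ x) {s : ℤ} (hs : s = 1 ∨ s = -1) : Lq A t₀ fun t => x t ^ s := by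
  rcases hs with rfl | rfl
  · simpa using h
  · simpa using h.inv

theorem Lq.prod {α : Type} (s : Finset α) {x : α → T → ℂ} (h : ∀ i ∈ s, Lq A t₀ (x i)) :
    Lq A t₀ fun t => ∏ i ∈ s, x i t := by
  classical
  induction s using Finset.induction_on with
  | empty => exact Lq.of (fun_const_mem 1) one_ne_zero
  | insert i s hi ih =>
    simp only [Finset.prod_insert hi]
    exact (h i (Finset.mem_insert_self _ _)).mul (ih fun j hj => h j (Finset.mem_insert_of_mem hj))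

variable {ι κ : Type} [Fintype ι] [Fintype κ] [DecidableEq ι] [DecidableEq κ]
  {W : S6} {p : ι → ℤ} {q : κ → ℤ} {e : Matrix κ κ S6} {d d' f φ : T → Matrix ι ι S6}
  {a : ℤ} {n r : ℕ} {F F' : Fr ι κ r}

omit [DecidableEq ι] [DecidableEq κ] in
theorem dt_mem (h : Fam A f) (hf : ∀ t, f t ∈ MM p p 0) (j : ℤ) :
    (fun t => dt (LL κ (f t)) (MM q p j)) ∈ A := by
  have := mm_fin q p j
  let b := Module.finBasis ℂ (MM q p j)
  have h1 : ∀ t, ∀ x ∈ MM q p j, LL κ (f t) x ∈ MM q p j := fun t x hx =>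
    mm_mul (hf t) hx (zero_add _)
  simp only [dt_eq (h1 _), ← LinearMap.det_toMatrix b]
  refine det_mem fun i k => ?_
  obtain ⟨l, hl⟩ := (b.coord i).exists_extend
  have h2 : ∀ t, LinearMap.toMatrix b b ((LL κ (f t)).restrict (h1 t)) i k =
      l (f t * (b k).1) := fun t => by
    rw [LinearMap.toMatrix_apply]
    exact (LinearMap.congr_fun hl ((LL κ (f t)).restrict (h1 t) (b k))).symm
  simp only [h2]
  exact (h.mul (Fam.const _)).lin (fun t => h1 t _ (b k).2) l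

omit [DecidableEq ι] in
theorem frd_mem (he : e ∈ MM q q 3) (h : Fam A f) (hf : ∀ t, f t ∈ MM p p 0) (h' : Fam A d)
    (hd : ∀ t, d t ∈ MM p p 3) {j : ℤ} (hF : ∀ k, F.al k ∈ MM q p j) :
    (fun t => frd q e (d t) F F' (f t)) ∈ A := by
  refine det_mem fun i k => ?_
  exact (h.mul (((h'.mul (Fam.const _)).sub (Fam.const _)).mul (Fam.const _))).lin
    (p := q) (q := p) (j := j + 3) (fun t => mm_mul (hf t) (mm_mul (sub_mem
      (mm_mul (hd t) (hF k) (add_comm _ _)) (mm_mul (hF k) he rfl)) (eps_mem q) (add_zero _))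
      (zero_add _)) (F'.be i)

theorem cdet_mem (h : Fam A f) : (fun t => coeff 0 (f t).det) ∈ A := by
  have h1 : ∀ t, coeff 0 (f t).det = ((f t).map (constantCoeff : S6 →+* ℂ)).det := fun t => by
    rw [← RingHom.mapMatrix_apply, ← RingHom.map_det, constantCoeff_eq]
  simp only [h1]
  exact det_mem fun i j => h i j 0

/-- admissible frames stay admissible -/
theorem adm_open (hE : IsMF W q e) (hL : Lo p q a) (h : Fam A d) (hd : ∀ t, d t ∈ MM p p 3)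
    (h0 : IsMF W p (d t₀)) (hF : Adm p q e a n (d t₀) F) :
    ∃ g ∈ A, g t₀ ≠ 0 ∧ ∀ t, g t ≠ 0 → IsMF W p (d t) →
      Chi p q e a n (d t) = Chi p q e a n (d t₀) → Adm p q e a n (d t) F :=
  ⟨_, frd_mem hE.deg (Fam.const 1) (fun _ => mm_one p) h hd hF.mem, hF.ne,
    fun _ h1 h2 h3 => ⟨hF.mem, h1, (rk_eq hE h2 h0 hL h3).trans hF.rk⟩⟩

/-- the normalising factor is locally a quotient of functions of `A` -/
theorem nrm_reg (hW : V.Hg 6 W) (hE : IsMF W q e) (hL : Lo p q a) {s : ℤ} (hs : s = 1 ∨ s = -1)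
    (fd : Fam A d) (fd' : Fam A d') (fφ : Fam A φ) (hd : ∀ t, d t ∈ MM p p 3)
    (hd' : ∀ t, d' t ∈ MM p p 3) (hφ : ∀ t, φ t ∈ MM p p 0) (m : IsMF W p (d t₀))
    (m' : IsMF W p (d' t₀)) (hF : Adm p q e a n (d t₀) F) (hF' : Adm p q e a n (d' t₀) F')
    (h : Eqv p (d t₀) (d' t₀) (φ t₀)) :
    ∃ f ∈ A, ∃ g ∈ A, f t₀ ≠ 0 ∧ g t₀ ≠ 0 ∧ ∀ t, f t ≠ 0 → g t ≠ 0 → IsMF W p (d t) →
      IsMF W p (d' t) → φ t ∈ ZZ p (d t) p (d' t) 0 → Adm p q e a n (d t) F →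
      Chi p q e a n (d t) = s → Nrm p q e a n (d t) F (d' t) F' ((f t / g t) • φ t) := by
  obtain ⟨k, hk, hu⟩ := strict hW m m' h
  have f1 : Fam A fun t => φ t + (d' t * k + k * d t) :=
    fφ.add ((fd'.mul (Fam.const k)).add ((Fam.const k).mul fd))
  have f2 : ∀ t, φ t + (d' t * k + k * d t) ∈ MM p p 0 := fun t =>
    add_mem (hφ t) (add_mem (mm_mul (hd' t) hk (by norm_num)) (mm_mul hk (hd t) (by norm_num)))
  have z0 := add_mem h.1 (BB_le m m' (htpy_mem hk))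
  have h0 := del_ne hE m' hF hF' z0 hu
  have sg : ∀ j : ℕ, (-1 : ℤ) ^ j = 1 ∨ (-1 : ℤ) ^ j = -1 := fun j => neg_one_pow_eq_or ℤ j
  have nz : ∀ (j : ℕ) {z : ℂ}, z ^ ((-1 : ℤ) ^ j) ≠ 0 → z ≠ 0 := fun j z h1 h2 =>
    h1 (by rw [h2, zero_zpow _ (pow_ne_zero _ (by norm_num))])
  obtain ⟨n1, n2⟩ := mul_ne_zero_iff.1 h0
  have l1 : Lq A t₀ fun t =>
      del p q e a n (d t) F (d' t) F' (φ t + (d' t * k + k * d t)) ^ (-s) := by
    refine Lq.zpow (Lq.mul (Lq.prod _ fun j hj => Lq.zpow (Lq.of (dt_mem f1 f2 _)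
      (nz j (Finset.prod_ne_zero_iff.1 n1 j hj))) (sg j)) (Lq.zpow ?_ (sg n))) (by omega)
    simp only [div_eq_mul_inv]
    exact (Lq.of (frd_mem hE.deg f1 f2 fd hd hF.mem) (div_ne_zero_iff.1 (nz n n2)).1).mul
      (Lq.of (frd_mem hE.deg (Fam.const 1) (fun _ => mm_one p) fd' hd' hF'.mem) hF'.ne).inv
  obtain ⟨f, a1, g, a2, a3, a4, a5⟩ := l1
  have u0 := (unit_iff (f2 t₀)).1 hu
  refine ⟨_, mul_mem a1 (cdet_mem f1), _, mul_mem a2 (cdet_mem f1), mul_ne_zero a3 u0,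
    mul_ne_zero a4 u0, fun t h1 h2 b1 b2 b3 b4 b5 => ?_⟩
  obtain ⟨c1, c2⟩ := mul_ne_zero_iff.1 h1
  obtain ⟨c3, -⟩ := mul_ne_zero_iff.1 h2
  have e1 := a5 t c1 c3
  rw [Pi.mul_apply, Pi.mul_apply, mul_div_mul_right _ _ c2, ← e1]
  refine nrm_of_unit hE b1 hL hs b5 b4 (add_mem b3 (BB_le b1 b2 (htpy_mem hk)))
    ((unit_iff (f2 t)).2 c2) (by simpa using neg_mem (htpy_mem (d := d t) (d' := d' t) hk))
    fun h3 => div_ne_zero c1 c3 ?_
  rw [← e1]
  simp only [h3]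
  exact zero_zpow _ (by omega)

end Vale.Agent.P287T.Dt
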