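import Vale.Agent.P287T.Dt.Glob
import Vale.Agent.P287T.Sx.St
import Mathlib.RingTheory.Jacobson.Ring

/-!
# From points to rings
-/

open MvPolynomial Module

noncomputable section

namespace Vale.Agent.P287T.Dt

open Vale.Agent.P287T.Cy Vale.Agent.P287T.Au Vale.Agent.P287T.Sx Vale.Agent.P287Z.O

variable {R : Type} [CommRing R] [Algebra ℂ R]

theorem pt_of_max [Algebra.FiniteType ℂ R] (m : Ideal R) (hm : m.IsMaximal) :
    ∃ φ : R →ₐ[ℂ] ℂ, ∀ x, φ x = 0 ↔ x ∈ m := by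
  let _ := Ideal.Quotient.field m
  have : Module.Finite ℂ (R ⧸ m) := finite_of_finite_type_of_isJacobsonRing _ _
  let e := AlgEquiv.ofBijective (Algebra.ofId ℂ (R ⧸ m))
    IsAlgClosed.algebraMap_bijective_of_isIntegral
  refine ⟨e.symm.toAlgHom.comp (Ideal.Quotient.mkₐ ℂ m), fun x => ?_⟩
  rw [← Ideal.Quotient.eq_zero_iff_mem]
  exact map_eq_zero_iff _ e.symm.injective

theorem pts_inj [Algebra.FiniteType ℂ R] [IsReduced R] {x : R} (h : ∀ φ : R →ₐ[ℂ] ℂ, φ x = 0) :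
    x = 0 := by
  have := isJacobsonRing_of_finiteType (A := ℂ) (B := R)
  refine IsNilpotent.eq_zero (mem_nilradical.1 ?_)
  rw [nilradical, Ideal.radical_eq_jacobson, Ideal.jacobson, Ideal.mem_sInf]
  intro m hm
  obtain ⟨φ, hφ⟩ := pt_of_max m hm.2
  exact (hφ x).1 (h φ)

/-- the functions given by elements of degree zero -/
def fn {e : Eu R} (h : Lb e e) : Subalgebra ℂ ((R →ₐ[ℂ] ℂ) → ℂ) where
  carrier := {f | ∃ r ∈ e.H 0, f = fun φ => φ r}
  mul_mem' := by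
    rintro _ _ ⟨a, ha, rfl⟩ ⟨b, hb, rfl⟩
    exact ⟨a * b, add_zero (0 : ℤ × ℤ) ▸ h.mul ha hb, funext fun φ => (map_mul φ a b).symm⟩
  add_mem' := by
    rintro _ _ ⟨a, ha, rfl⟩ ⟨b, hb, rfl⟩
    exact ⟨a + b, add_mem ha hb, funext fun φ => (map_add φ a b).symm⟩
  algebraMap_mem' c := ⟨c • 1, (e.H 0).smul_mem c h.one, funext fun φ => by simp⟩

variable {e : Eu R} {he : Lb e e}

theorem pr_mul (he : Lb e e) {w : R} (hw : w ∈ e.H 0) (x : R) :
    e.pr 0 (x * w) = e.pr 0 x * w := by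
  have : Deg e e 0 (LinearMap.mulRight ℂ w) := fun δ v hv => by
    rw [add_comm]
    exact he.mul hv hw
  simpa using this.pr 0 x

theorem pu_fn [Algebra.FiniteType ℂ R] (he : Lb e e) : PU (fn he) := by
  intro w hw h0
  choose u h1 h2 using hw
  have : Ideal.span (Set.range u) = ⊤ := by
    by_contra h
    obtain ⟨m, hm, h3⟩ := Ideal.exists_le_maximal _ h
    obtain ⟨φ, hφ⟩ := pt_of_max m hm
    exact h0 φ ((congrFun (h2 φ) φ).trans ((hφ _).2 (h3 (Ideal.subset_span ⟨φ, rfl⟩))))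
  obtain ⟨c, hc⟩ := Finsupp.mem_ideal_span_range_iff_exists_finsupp.1
    ((Ideal.eq_top_iff_one _).1 this)
  have h3 := congrArg (e.pr 0) hc
  rw [e.pr_self he.one, Finsupp.sum, map_sum] at h3
  refine ⟨c.support, fun i φ => φ (e.pr 0 (c i)), fun i => ⟨_, e.pr_mem 0 _, rfl⟩, fun φ => ?_⟩
  rw [← map_one φ, ← h3, map_sum]
  exact Finset.sum_congr rfl fun i _ => by rw [pr_mul he (h1 i), map_mul, h2 i]

section

variable {ι κ μ : Type} {p : ι → ℤ} {q : κ → ℤ} {j : ℤ} {φ : R →ₐ[ℂ] ℂ}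
  {g g' : Matrix κ ι (Px R)}

theorem coeff_val (i : κ) (l : ι) (m : Fin 6 →₀ ℕ) :
    coeff m (val φ g i l) = φ (coeff m (g i l)) := coeff_map _ _ _

theorem val_ext [Algebra.FiniteType ℂ R] [IsReduced R] (h : ∀ φ, val φ g = val φ g') :
    g = g' := by
  ext i l m
  rw [← sub_eq_zero]
  refine pts_inj fun φ => ?_
  rw [map_sub, ← coeff_val, ← coeff_val, h, sub_self]

theorem val_add : val φ (g + g') = val φ g + val φ g' := Matrix.map_add _ (map_add _) _ _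

theorem val_sub : val φ (g - g') = val φ g - val φ g' := Matrix.map_sub _ (map_sub _) _ _

theorem val_mul [Fintype κ] (f : Matrix μ κ (Px R)) : val φ (f * g) = val φ f * val φ g :=
  Matrix.map_mul

theorem val_one [DecidableEq ι] : val φ (1 : Matrix ι ι (Px R)) = 1 :=
  Matrix.map_one _ (map_zero _) (map_one _)

theorem val_smul (r : R) : val φ (r • g) = φ r • val φ g := by
  ext i l m
  simp [coeff_val]

theorem val_sum {α : Type} (s : Finset α) (x : α → Matrix κ ι (Px R)) :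
    val φ (∑ i ∈ s, x i) = ∑ i ∈ s, val φ (x i) := by
  ext i l m
  simp only [coeff_val, Matrix.sum_apply, coeff_sum, map_sum]

theorem val_mm {S : Type} [CommRing S] [Algebra ℂ S] (f : R →ₐ[ℂ] S) (ψ : S →ₐ[ℂ] ℂ) :
    val ψ (mm (f : R →+* S) g) = val (ψ.comp f) g := by
  ext i l m
  rw [coeff_val, coeff_val]
  exact congrArg ψ (coeff_map _ _ _)

theorem val_mem {D₀ : Submodule ℂ R} (h : MX D₀ p q j g) (φ : R →ₐ[ℂ] ℂ) :
    val φ g ∈ MM p q j := fun i l m hm => by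
  rw [← (h i l m).2 fun k => hm (by rw [coeff_val, k, map_zero])]
  simp [Finsupp.weight_apply, Finsupp.degree_apply, Finsupp.sum, Finset.mul_sum, mul_comm]

variable (e) in
/-- all coefficients have degree zero -/
def CF (g : Matrix κ ι (Px R)) : Prop := ∀ i l m, coeff m (g i l) ∈ e.H 0

theorem cf_of (h : MX (e.H 0) p q j g) : CF e g := fun i l m => (h i l m).1

theorem CF.sub (h : CF e g) (h' : CF e g') : CF e (g - g') := fun i l m => by
  rw [Matrix.sub_apply, coeff_sub]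
  exact sub_mem (h i l m) (h' i l m)

theorem CF.mul (he : Lb e e) [Fintype κ] {f : Matrix μ κ (Px R)} (h : CF e f) (h' : CF e g) :
    CF e (f * g) := fun i l m => by
  classical
  simp only [Matrix.mul_apply, coeff_sum, coeff_mul]
  exact sum_mem fun k _ => sum_mem fun x _ => add_zero (0 : ℤ × ℤ) ▸ he.mul (h _ _ _) (h' _ _ _)

theorem cf_one (he : Lb e e) [DecidableEq ι] : CF e (1 : Matrix ι ι (Px R)) := fun i l m => by
  classical
  rw [Matrix.one_apply]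
  split_ifs
  · rw [coeff_one]
    split_ifs
    · exact he.one
    · exact zero_mem _
  · exact zero_mem _

theorem CF.mm {S : Type} [CommRing S] [Algebra ℂ S] {e' : Eu S} {f : R →+* S}
    (hf : Deg e e' 0 f) (h : CF e g) : CF e' (mm f g) := fun i l m => by
  rw [Sx.mm, Matrix.map_apply, coeff_map]
  exact add_zero (0 : ℤ × ℤ) ▸ hf _ _ (h i l m)

theorem mx_mm {S : Type} [CommRing S] [Algebra ℂ S] {e' : Eu S} {f : R →+* S}
    (hf : Deg e e' 0 f) (h : MX (e.H 0) p q j g) : MX (e'.H 0) p q j (mm f g) := fun i l m =>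
  ⟨(cf_of h).mm hf i l m, fun k => (h i l m).2 fun k' => k (by
    rw [Sx.mm, Matrix.map_apply, coeff_map, k', map_zero])⟩

theorem CF.fam (h : CF e g) : Fam (fn he) fun φ => val φ g := fun i l m =>
  ⟨_, h i l m, funext fun _ => coeff_val i l m⟩

theorem mx_zero {D₀ : Submodule ℂ R} : MX D₀ p q j (0 : Matrix κ ι (Px R)) := fun _ _ _ =>
  ⟨zero_mem _, fun h => (h rfl).elim⟩

theorem mx_add {D₀ : Submodule ℂ R} (h : MX D₀ p q j g) (h' : MX D₀ p q j g') :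
    MX D₀ p q j (g + g') := fun i l m => by
  rw [Matrix.add_apply, coeff_add]
  refine ⟨add_mem (h i l m).1 (h' i l m).1, fun k => ?_⟩
  by_cases k' : coeff m (g i l) = 0
  · exact (h' i l m).2 (by rwa [k', zero_add] at k)
  · exact (h i l m).2 k'

theorem mx_sum {D₀ : Submodule ℂ R} {α : Type} (s : Finset α) {x : α → Matrix κ ι (Px R)}
    (h : ∀ i ∈ s, MX D₀ p q j (x i)) : MX D₀ p q j (∑ i ∈ s, x i) :=
  Finset.sum_induction _ _ (fun _ _ => mx_add) mx_zero h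

theorem mx_smul (he : Lb e e) {r : R} (hr : r ∈ e.H 0) (h : MX (e.H 0) p q j g) :
    MX (e.H 0) p q j (r • g) := fun i l m => by
  rw [Matrix.smul_apply, coeff_smul, smul_eq_mul]
  exact ⟨add_zero (0 : ℤ × ℤ) ▸ he.mul hr (h i l m).1,
    fun k => (h i l m).2 (right_ne_zero_of_mul k)⟩

theorem lift_rg {M : (R →ₐ[ℂ] ℂ) → Matrix κ ι S6} (h : M ∈ RG (fn he) (MM p q j)) :
    ∃ g, MX (e.H 0) p q j g ∧ ∀ φ, val φ g = M φ := by
  refine rg_ind (P := fun M => ∃ g, MX (e.H 0) p q j g ∧ ∀ φ, val φ g = M φ) h ?_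
    ⟨0, mx_zero, fun φ => Matrix.map_zero _ (map_zero _)⟩ ?_
  · rintro _ ⟨r, hr, rfl⟩ u hu
    refine ⟨r • mm (algebraMap ℂ R) u, mx_smul he hr fun i l m => ?_, fun φ => ?_⟩
    · rw [mm, Matrix.map_apply, coeff_map, Algebra.algebraMap_eq_smul_one]
      exact ⟨(e.H 0).smul_mem _ he.one, fun k => coeff_hg (hu i l) (left_ne_zero_of_smul k)⟩
    · ext i l m
      simp [coeff_val, mm, coeff_map]
  · rintro x y ⟨g, h1, h2⟩ ⟨g', h3, h4⟩
    exact ⟨g + g', mx_add h1 h3, fun φ => by rw [val_add, h2, h4]⟩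

end

variable {ι : Type} [Fintype ι] [DecidableEq ι] {W : S6} {p : ι → ℤ} {d d' : Matrix ι ι (Px R)}

theorem lift_op {G : (R →ₐ[ℂ] ℂ) → Matrix ι ι S6 →ₗ[ℂ] Matrix ι ι S6} {j' : ℤ}
    (h : ∀ y, (fun t => G t y) ∈ RG (fn he) (MM p p j')) (j : ℤ) :
    ∃ H : Matrix ι ι (Px R) →ₗ[R] Matrix ι ι (Px R), (∀ y, CF e y → MX (e.H 0) p p j' (H y)) ∧
      (∀ y φ, val φ (H y) ∈ MM p p j') ∧
      ∀ y φ, val φ y ∈ MM p p j → val φ (H y) = G φ (val φ y) := by
  obtain ⟨S, hS⟩ := mm_expand p p j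
  choose x h1 h2 using fun y => lift_rg (h y)
  refine ⟨∑ a, ∑ b, ∑ m ∈ S, (lcoeff R m ∘ₗ Matrix.entryLinearMap R (Px R) a b).smulRight
    (x (Matrix.single a b (monomial m 1))), fun y hy => ?_, fun y φ => ?_, fun y φ hy => ?_⟩
  · simp only [LinearMap.sum_apply, LinearMap.smulRight_apply]
    exact mx_sum _ fun a _ => mx_sum _ fun b _ => mx_sum _ fun m _ =>
      mx_smul he (hy a b m) (h1 _)
  · simp only [LinearMap.sum_apply, LinearMap.smulRight_apply, val_sum, val_smul]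
    exact sum_mem fun a _ => sum_mem fun b _ => sum_mem fun m _ =>
      Submodule.smul_mem _ _ (val_mem (h1 _) φ)
  · rw [hS _ hy]
    simp only [LinearMap.sum_apply, LinearMap.smulRight_apply, val_sum, val_smul, map_sum,
      map_smul, h2, coeff_val]
    rfl

variable [Algebra.FiniteType ℂ R] [IsReduced R]

/-- a matrix which is a boundary at all points is a boundary -/
theorem bnd (he : Lb e e) (fd : CF e d) (fd' : CF e d')
    (h : ∀ φ, Pair W p (val φ d) (val φ d')) {k : ℤ} {x : Matrix ι ι (Px R)} (fx : CF e x)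
    (hx : ∀ φ, val φ x ∈ BB p (val φ d) p (val φ d') (3 * k)) :
    ∃ y, MX (e.H 0) p p (3 * k - 3) y ∧ x = d' * y + y * d := by
  obtain ⟨G, h1, h2⟩ := ginvB (pu_fn he) fd.fam fd'.fam h k
  obtain ⟨H, h3, -, h4⟩ := lift_op h1 (3 * k)
  refine ⟨H x, h3 x fx, val_ext fun φ => ?_⟩
  rw [val_add, val_mul, val_mul, h4 x φ (mem_ZZ.1 (BB_le (h φ).mf (h φ).mf' (hx φ))).1]
  exact h2 φ _ (hx φ)

/-- contracting homotopies in negative degrees -/
theorem neg (he : Lb e e) (fd : CF e d) (fd' : CF e d')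
    (h : ∀ φ, Pair W p (val φ d) (val φ d')) {k : ℤ} (hk : k < 0) :
    ∃ s s' : Matrix ι ι (Px R) →ₗ[R] Matrix ι ι (Px R),
      (∀ m, MX (e.H 0) p p (3 * k) m → MX (e.H 0) p p (3 * k - 3) (s m)) ∧
      ∀ m, MX ⊤ p p (3 * k) m → m = d' * s m + s m * d + s' (d' * m - m * d) := by
  obtain ⟨G, h1, h2⟩ := ginvB (pu_fn he) fd.fam fd'.fam h k
  obtain ⟨H, h3, -, h4⟩ := lift_op h1 (3 * k)
  obtain ⟨G', k1, k2⟩ := ginvZ (pu_fn he) fd.fam fd'.fam h k
  obtain ⟨H', k3, -, k4⟩ := lift_op k1 (3 + 3 * k)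
  refine ⟨H ∘ₗ (LinearMap.id - H' ∘ₗ (LinearMap.mulLeft R d' - LinearMap.mulRight R d)), H',
    fun m hm => h3 _ ((cf_of hm).sub (cf_of (k3 _
      ((fd'.mul he (cf_of hm)).sub ((cf_of hm).mul he fd))))), fun m hm => ?_⟩
  rw [← sub_eq_iff_eq_add]
  refine val_ext fun φ => ?_
  have h5 := val_mem hm φ
  have h6 : val φ (m - H' (d' * m - m * d)) ∈ ZZ p (val φ d) p (val φ d') (3 * k) := by
    rw [val_sub, k4, val_sub, val_mul, val_mul]
    · exact k2 φ _ h5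
    · rw [val_sub, val_mul, val_mul]
      exact sub_mem (mm_mul (h φ).mf'.deg h5 rfl) (mm_mul h5 (h φ).mf.deg (add_comm _ _))
  have h7 := h4 _ φ (mem_ZZ.1 h6).1
  rw [← (h φ).neg hk] at h6
  rw [val_add, val_mul, val_mul, h2 φ _ h6, ← h7]
  rfl

/-- a global normalised isomorphism -/
theorem glob_ring {κ : Type} [Fintype κ] [DecidableEq κ] {q : κ → ℤ} {c : Matrix κ κ S6} {a : ℤ}
    {n r : ℕ} {F F' : (R →ₐ[ℂ] ℂ) → Fr ι κ r} (he : Lb e e) (hW : V.Hg 6 W) (hE : IsMF W q c)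
    (hL : Lo p q a) {s : ℤ} (hs : s = 1 ∨ s = -1) (fd : CF e d) (fd' : CF e d')
    (h : ∀ φ, Pair W p (val φ d) (val φ d')) (hc : ∀ φ, Chi p q c a n (val φ d) = s)
    (hF : ∀ φ, Adm p q c a n (val φ d) (F φ)) (hF' : ∀ φ, Adm p q c a n (val φ d') (F' φ))
    (l : LC (fn he) F) (l' : LC (fn he) F') : ∃ g, MX (e.H 0) p p 0 g ∧ d' * g = g * d ∧
      ∀ φ, Nrm p q c a n (val φ d) (F φ) (val φ d') (F' φ) (val φ g) := by
  obtain ⟨g, h1, h2⟩ := glob (pu_fn he) hW hE hL hs fd.fam fd'.fam h hc hF hF' l l'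
  have h3 := fun φ => mem_ZZ.1 ((h2 φ).zz (h φ).mf (h φ).mf')
  obtain ⟨x, h4, h5⟩ := lift_rg (rg_of_fam h1 fun φ => (h3 φ).1)
  refine ⟨x, h4, val_ext fun φ => ?_, fun φ => h5 φ ▸ h2 φ⟩
  rw [val_mul, val_mul, h5]
  exact (h3 φ).2

end Vale.Agent.P287T.Dt
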